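import Vale.Agent.P218WO.Crude
import Vale.Agent.P218UO.Core
import Vale.Agent.P218UV.Asm

/-! The integrated inequality for `G = ∫_O γ dy` along a flow with singular times, from barriers for
the lower end of `O`. -/

open MeasureTheory Set Filter Topology Metric
open scoped RealInnerProductSpace ContDiff

namespace Vale.Agent.P218WO

open Vale.Agent.P218UA Vale.Agent.P218WA Vale.Agent.P218UO Vale.Agent.P218UL
open Vale.Agent.P218UV (trk exists_level int_le cont_d2)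

lemma taylor_unif {X : Type} [NormedAddCommGroup X] [NormedSpace ℝ X] [ProperSpace X] {Γ : X → ℝ}
    {V K : Set X} (hV : IsOpen V) (hΓ : ∀ a ∈ V, ContDiffAt ℝ 2 Γ a) (hK : IsCompact K)
    (hKV : K ⊆ V) : ∃ M ρ : ℝ, 0 ≤ M ∧ 0 < ρ ∧ ∀ a ∈ K, ‖fderiv ℝ Γ a‖ ≤ M ∧
      ‖fderiv ℝ (fderiv ℝ Γ) a‖ ≤ M ∧
      ∀ d, ‖d‖ ≤ ρ → Γ a + fderiv ℝ Γ a d - M * ‖d‖ ^ 2 ≤ Γ (a + d) := by
  obtain ⟨ρ, hρ, h1⟩ := hK.exists_cthickening_subset_open hV hKV
  obtain ⟨M₁, h2⟩ := hK.exists_bound_of_continuousOn (f := fderiv ℝ Γ) fun a ha =>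
    (diff2 (hΓ a (hKV ha))).continuousAt.continuousWithinAt
  obtain ⟨M₂, h3⟩ := (hK.cthickening (r := ρ)).exists_bound_of_continuousOn
    (f := fderiv ℝ (fderiv ℝ Γ)) fun a ha => (((hΓ a (h1 ha)).fderiv_right (m := 1)
      (by norm_num)).fderiv_right (m := 0) (by norm_num)).continuousAt.continuousWithinAt
  have h4 : M₂ ≤ max (max M₁ M₂) 0 := (le_max_right _ _).trans (le_max_left _ _)
  refine ⟨max (max M₁ M₂) 0, ρ, le_max_right _ _, hρ, fun a ha => ⟨(h2 a ha).trans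
    ((le_max_left _ _).trans (le_max_left _ _)),
    (h3 a (self_subset_cthickening _ ha)).trans h4, fun d hd => ?_⟩⟩
  have h5 : closedBall a ‖d‖ ⊆ cthickening ρ K :=
    (closedBall_subset_closedBall hd).trans (closedBall_subset_cthickening ha ρ)
  have h6 := mem_closedBall_self (x := a) (norm_nonneg d)
  have h7 := (convex_closedBall a ‖d‖).norm_image_sub_le_of_norm_fderiv_le' (𝕜 := ℝ) (f := Γ)
    (φ := fderiv ℝ Γ a) (C := max (max M₁ M₂) 0 * ‖d‖) (fun z hz => diff1 (hΓ z (h1 (h5 hz))))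
    (fun z hz => ((convex_closedBall a ‖d‖).norm_image_sub_le_of_norm_fderiv_le (𝕜 := ℝ)
      (f := fderiv ℝ Γ) (fun z hz => diff2 (hΓ z (h1 (h5 hz))))
      (fun z hz => (h3 z (h5 hz)).trans h4) h6 hz).trans (mul_le_mul_of_nonneg_left
        (mem_closedBall_iff_norm.1 hz) (le_max_right _ _))) h6
    (show a + d ∈ closedBall a ‖d‖ by simp)
  rw [add_sub_cancel_left] at h7
  linarith [(abs_le.1 h7).1]

variable {w : ℝ → E3 → ℝ} {I Z : Set ℝ} {A : ℝ}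

lemma int_psi' (hC : CalcW) (hw : IsW0 w I Z A) {ψ Q : ST → ℝ} (hψ : Continuous ψ)
    (hc : HasCompactSupport ψ) (hI : tsupport ψ ⊆ I ×ˢ univ) (hQ : Measurable Q) {B : ℝ}
    (hB : ∀ p, |Q p| ≤ B) : Integrable (fun p => ψ p * Q p) (stm w I) := by
  obtain ⟨M, hM⟩ := hψ.bounded_above_of_compact_support hc
  refine IntegrableOn.integrable_of_forall_notMem_eq_zero (s := tsupport ψ) ?_ fun p hp => by
    rw [image_eq_zero_of_notMem_tsupport hp, zero_mul]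
  exact (Measure.integrableOn_of_bounded (hC.stm_fin w I Z A hw _ hc.isCompact hI).ne
    hQ.aestronglyMeasurable (ae_of_all _ hB)).bdd_mul hψ.aestronglyMeasurable (ae_of_all _ hM)

lemma meas_trk (hw : IsW0 w I Z A) {ψ : ST → ℝ} (hI : tsupport ψ ⊆ I ×ˢ univ) :
    MeasurableSet (trk w ψ) := by
  have h1 := hw.isOpen_reg.prod (isOpen_univ (X := E3))
  have h2 := hw.smooth.continuousOn.isOpen_inter_preimage h1 (isOpen_compl_singleton (x := 0))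
  refine ((isClosed_tsupport ψ).measurableSet.inter (h1.measurableSet.diff h2.measurableSet)).congr
    (Set.ext fun p => ⟨fun h => ⟨h.1, not_not.1 fun h3 => h.2.2 ⟨h.2.1, h3⟩⟩, fun h =>
      ⟨h.1, ⟨⟨(hI h.1).1, hw.notMem h.2⟩, trivial⟩, fun h3 => h3.2 h.2⟩⟩)

theorem asm (hC : CalcW) (hV : ViscW) (hw : IsW0 w I Z A) {O : ℝ → E3 → Set ℝ}
    (up : ∀ t x y y', y ∈ O t x → y ≤ y' → y' ∈ O t x)
    (op : IsOpen {p : ℝ × E3 × ℝ | p.1 ∈ I \ Z ∧ p.2.2 ∈ O p.1 p.2.1})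
    {J : Set ℝ} {γ : ℝ → E3 → ℝ → ℝ} {ψ : ℝ → E3 → ℝ} {Q : ℝ × E3 → ℝ} {y₀ y₁ : ℝ}
    (hJ : IsOpen J) (hJI : J ⊆ I)
    (hγ : ContDiffOn ℝ 2 (fun p : ℝ × E3 × ℝ => γ p.1 p.2.1 p.2.2) (J ×ˢ univ))
    (h0 : ∀ t ∈ J, ∀ x y, 0 ≤ γ t x y) (h1 : ∀ t ∈ J, ∀ x y, y₁ ≤ y → γ t x y = 0)
    (h2 : ∀ t ∈ J, ∀ x y, y ≤ y₀ → γ t x y = 0)
    (hψ : ContDiff ℝ 2 fun p : ℝ × E3 => ψ p.1 p.2)
    (hψc : HasCompactSupport fun p : ℝ × E3 => ψ p.1 p.2)
    (hψJ : tsupport (fun p : ℝ × E3 => ψ p.1 p.2) ⊆ J ×ˢ univ) (hψ0 : ∀ t x, 0 ≤ ψ t x)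
    (hQ : Measurable Q) {B : ℝ} (hB : ∀ p, 0 ≤ Q p ∧ Q p ≤ B)
    (cl : ∀ p ∈ trk w fun p => ψ p.1 p.2, ∀ y, (p.1, p.2, y) ∈ closure
      {a : ℝ × E3 × ℝ | a.1 ∈ J ∧ γ a.1 a.2.1 a.2.2 ≠ 0} → (∃ᶠ a : ST × ℝ in 𝓝 (p, y),
        w a.1.1 a.1.2 = 0 ∧ a.2 ∈ O a.1.1 a.1.2) → ∀ y', y < y' → y' ∈ O p.1 p.2)
    (bar : ∀ p ∈ trk w fun p => ψ p.1 p.2, ∀ y, (p.1, p.2, y) ∈ closure
      {a : ℝ × E3 × ℝ | a.1 ∈ J ∧ γ a.1 a.2.1 a.2.2 ≠ 0} → O p.1 p.2 = Ioi y → ∀ e₁ e₂,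
      Fr (Nu w p) e₁ e₂ → ∃ P : ST → ℝ, ContDiffAt ℝ 2 P p ∧ P p = y ∧
        (∀ᶠ q : ST in 𝓝 p, w q.1 q.2 = 0 → ∀ y', P q < y' → y' ∈ O q.1 q.2) ∧
        -(γ p.1 p.2 y * Lf e₁ e₂ P p)
          + 2 * (fderiv ℝ P p (sp e₁) * ⟪e₁, gradient (fun x => γ p.1 x y) p.2⟫
            + fderiv ℝ P p (sp e₂) * ⟪e₂, gradient (fun x => γ p.1 x y) p.2⟫)
          + deriv (γ p.1 p.2) y * Gf e₁ e₂ P p ≤ Q p)
    {C₀ k : ℝ} (hk : 0 < k) (crude : ∀ p ∈ trk w fun p => ψ p.1 p.2, ∀ y, γ p.1 p.2 y ≠ 0 →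
      y ∈ O p.1 p.2 → Par w O C₀ k p y) :
    Integrable (fun p : ℝ × E3 => (∫ y in O p.1 p.2, γ p.1 p.2 y) * adj w ψ p.1 p.2) (stm w I) ∧
      Integrable (fun p : ℝ × E3 => ψ p.1 p.2 *
        ∫ y in O p.1 p.2, heat w (fun t x => γ t x y) p.1 p.2) (stm w I) ∧
      0 ≤ ∫ p, ((∫ y in O p.1 p.2, γ p.1 p.2 y) * adj w ψ p.1 p.2 + ψ p.1 p.2 *
        ((∫ y in O p.1 p.2, heat w (fun t x => γ t x y) p.1 p.2) + Q p)) ∂(stm w I) := by
  have hI := hψJ.trans (prod_mono_left hJI)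
  have hKm := meas_trk hw hI
  set K := trk w fun p : ℝ × E3 => ψ p.1 p.2
  set b := max (y₀ - 1) y₁
  set U : Set ST := {p | p.1 ∈ J}
  have hU : IsOpen U := hJ.preimage continuous_fst
  have hg := cd_gw hγ
  have hKU : ∀ p ∈ K, p ∈ U := fun p hp => (hψJ hp.1).1
  have hKZ : ∀ p ∈ K, p.1 ∈ I \ Z := fun p hp => ⟨(hI hp.1).1, hw.notMem hp.2⟩
  have hn : ∀ p ∈ K, ‖Nu w p‖ = 1 := fun p hp => (hw.eik _ (hKZ p hp).1 _ hp.2).self_of_nhds
  have hO : ∀ p ∈ K, IsOpen (O p.1 p.2) := fun p hp => by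
    simpa [(hKZ p hp).1, (hKZ p hp).2] using op.preimage (f := fun y => (p.1, p.2, y)) (by fun_prop)
  choose! u hu hu1 hu2 using fun p (hp : p ∈ K) =>
    exists_level ((hO p hp).inter (isOpen_Ioi (a := y₀ - 1)))
      (fun y y' h h' => ⟨up _ _ _ _ h.1 h', lt_of_lt_of_le h.2 h'⟩) (le_max_left (y₀ - 1) y₁)
      fun y h => h.2
  have gc : ∀ a : ST × ℝ, a.1 ∈ U → ContinuousAt (gw γ) a := fun a ha => (cd_g hU hg ha).continuousAt
  have hgc := fun p (hp : p ∈ U) => cont_slice gc hp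
  have g0 : ∀ p ∈ K, ∀ y, 0 ≤ gw γ (p, y) := fun p hp y => h0 _ (hKU p hp) _ _
  have lev : ∀ p ∈ K, ∀ f : ℝ → ℝ, (∀ y, y ≤ y₀ ∨ y₁ ≤ y → f y = 0) →
      ∫ y in O p.1 p.2, f y = ∫ y in u p..b, f y := fun p hp f hf => by
    rw [intervalIntegral.integral_of_le (hu p hp).2, integral_Ioc_eq_integral_Ioo]
    refine setIntegral_eq_of_subset_of_forall_sdiff_eq_zero (hO p hp).measurableSet
      (fun y hy => ((hu1 p hp y hy.2).2 hy.1).1) fun y hy => hf y ?_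
    by_contra! h
    have h3 : y < b := h.2.trans_le (le_max_right _ _)
    exact hy.2 ⟨(hu1 p hp y h3).1 ⟨hy.1, show y₀ - 1 < y by linarith⟩, h3⟩
  have gz : ∀ p ∈ U, ∀ y, y ≤ y₀ ∨ y₁ ≤ y → gw γ (p, y) = 0 := fun p hp y hy =>
    hy.elim (h2 _ hp _ _) (h1 _ hp _ _)
  have eG : ∀ p ∈ K, ∫ y in O p.1 p.2, γ p.1 p.2 y = Gam (gw γ) b (p, u p) := fun p hp =>
    lev p hp _ (gz p (hKU p hp))
  have eF : ∀ p ∈ K, ∫ y in O p.1 p.2, heat w (fun t x => γ t x y) p.1 p.2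
      = ∫ y in u p..b, hw' w γ (p, y) := fun p hp => lev p hp _ fun y hy =>
    heat_zero (F := fun q => gw γ (q, y)) (hn p hp)
      ((hU.eventually_mem (hKU p hp)).mono fun q hq => gz q hq y hy)
  have low : ∀ p ∈ K, ∀ s, (∀ y ∈ Ioc s (u p), gw γ (p, y) = 0) →
      Gam (gw γ) b (p, s) ≤ ∫ y in O p.1 p.2, γ p.1 p.2 y := fun p hp s h =>
    (int_le (hgc p (hKU p hp)) (g0 p hp) h b).trans_eq (eG p hp).symm
  have low' : ∀ p ∈ K, ∀ s, (∀ y, s < y → y ∈ O p.1 p.2) → ∀ y ∈ Ioc s (u p), gw γ (p, y) = 0 :=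
    fun p hp s h y hy => by
    refine gz p (hKU p hp) y (Or.inl (not_lt.1 fun h3 => ?_))
    obtain ⟨z, h4, h5⟩ := exists_between (max_lt hy.1 (show y₀ - 1 < y by linarith))
    exact absurd ((hu1 p hp z (h5.trans_le (hy.2.trans (hu p hp).2))).1
      ⟨h z ((le_max_left _ _).trans_lt h4), (le_max_right _ _).trans_lt h4⟩) (h5.trans_le hy.2).not_gt
  have hKc := hψc.isCompact.prod (isCompact_Icc (a := y₀ - 1) (b := b))
  have hKV : tsupport (fun p : ℝ × E3 => ψ p.1 p.2) ×ˢ Icc (y₀ - 1) b ⊆ {a : ST × ℝ | a.1 ∈ U} :=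
    fun a ha => (hψJ ha.1).1
  obtain ⟨M, ρ, hM, hρ, hT⟩ := taylor_unif (hU.preimage continuous_fst)
    (fun a ha => cd_Gam hU hg b ha) hKc hKV
  obtain ⟨M₁, hM₁⟩ := hKc.exists_bound_of_continuousOn (f := Gam (gw γ) b) fun a ha =>
    (cd_Gam hU hg b (hKV ha)).continuousAt.continuousWithinAt
  obtain ⟨M₂, _, hM₂, -, hT₂⟩ := taylor_unif (hU.preimage continuous_fst)
    (fun a ha => cd_g hU hg ha) hKc hKV
  have bF : ∀ p ∈ K, |∫ y in u p..b, hw' w γ (p, y)| ≤ 3 * M₂ * (b - (y₀ - 1)) := fun p hp => by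
    refine (intervalIntegral.norm_integral_le_of_norm_le_const (f := fun y => hw' w γ (p, y))
      (C := 3 * M₂) fun y hy => ?_).trans ?_
    · rw [uIoc_of_le (hu p hp).2] at hy
      obtain ⟨a1, a2, -⟩ := hT₂ (p, y) ⟨hp.1, (hu p hp).1.trans hy.1.le, hy.2⟩
      obtain ⟨e₁, e₂, he⟩ := exists_fr (hn p hp)
      have a3 := slice_fst (cd_g hU hg (a := (p, y)) (hKU p hp))
      have a4 : ∀ e : E3, ‖e‖ = 1 → |D2 (gw γ) (p, y) (sp e, 0)| ≤ M₂ := fun e h =>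
        ((fderiv ℝ (fderiv ℝ (gw γ)) (p, y)).le_opNorm₂ _ _).trans (by simpa [h] using a2)
      have a5 : |fderiv ℝ (gw γ) (p, y) (tv, 0)| ≤ M₂ :=
        ((fderiv ℝ (gw γ) (p, y)).le_opNorm _).trans (by simpa using a1)
      rw [← hw_eq hJ hg (hKU p hp) he, Lf, (a3 _).1, (a3 _).2, (a3 _).2]
      exact (abs_sub _ _).trans ((add_le_add a5 ((abs_add_le _ _).trans
        (add_le_add (a4 _ he.n1) (a4 _ he.n2)))).trans_eq (by ring))
    · rw [abs_of_nonneg (sub_nonneg.2 (hu p hp).2)]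
      gcongr
      exact (hu p hp).1
  have hm : AEStronglyMeasurable (fun p : ℝ × E3 => ∫ y in O p.1 p.2,
      heat w (fun t x => γ t x y) p.1 p.2) ((stm w I).restrict K) := by
    refine meas_lev (U := {p : ST | p.1 ∈ J \ Z}) (Ω := fun p => O p.1 p.2) (g := hw' w γ) ?_
      (fun a ha => ?_) hKm (fun p hp => ⟨hKU p hp, (hKZ p hp).2⟩) _
    · have a1 := (hU.preimage (continuous_fst (Y := ℝ))).inter
        (op.preimage (by fun_prop : Continuous fun a : ST × ℝ => (a.1.1, a.1.2, a.2)))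
      refine (congrArg IsOpen (Set.ext fun a => ?_)).mp a1
      exact ⟨fun h => ⟨⟨h.1, h.2.1.2⟩, h.2.2⟩, fun h => ⟨h.1.1, ⟨hJI h.1.1, h.1.2⟩, h.2⟩⟩
    · obtain ⟨_, _, a1, -, a2⟩ := hw.loc ⟨hJI ha.1, ha.2⟩
      exact cont_hw a2.toIsFlow (hJ.inter isOpen_Ioo) inter_subset_right
        (hg.mono (prod_mono_left fun p hp => hp.1)) ⟨ha.1, a1⟩
  have hnear : ∀ p ∈ K, ∀ y, (p.1, p.2, y) ∉ closure {a : ℝ × E3 × ℝ | a.1 ∈ J ∧
      γ a.1 a.2.1 a.2.2 ≠ 0} → ∀ᶠ a : ST × ℝ in 𝓝 (p, y), gw γ a = 0 := fun p hp y h => by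
    have a1 : ContinuousAt (fun a : ST × ℝ => (a.1.1, a.1.2, a.2)) (p, y) := by fun_prop
    filter_upwards [a1.eventually (isClosed_closure.isOpen_compl.mem_nhds h),
      continuousAt_fst.eventually (hU.mem_nhds (hKU p hp))] with a a2 a3
    by_contra a4
    exact a2 (subset_closure ⟨a3, a4⟩)
  have G0 : ∀ p ∈ K, 0 ≤ ∫ y in O p.1 p.2, γ p.1 p.2 y := fun p hp =>
    setIntegral_nonneg_of_ae (Eventually.of_forall (g0 p hp))
  have Gc : ∀ p ∈ K, Continuous fun s => Gam (gw γ) b (p, s) := fun p hp =>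
    cont_slice (U := U) (fun a ha => (cd_Gam hU hg b ha).continuousAt) (hKU p hp)
  refine And.imp_right (And.imp_left fun h => ?_) (hV w I Z A hw ψ
    (fun p => ∫ y in O p.1 p.2, γ p.1 p.2 y) (fun p => (∫ y in O p.1 p.2,
      heat w (fun t x => γ t x y) p.1 p.2) + Q p) (max M₁ (3 * M₂ * (b - (y₀ - 1)) + B))
    hψ hψc hI hψ0 (hm.add hQ.aestronglyMeasurable)
    (fun p hp => ⟨G0 p hp, ((eG p hp).trans_le ((le_abs_self _).trans
      (hM₁ (p, u p) ⟨hp.1, hu p hp⟩))).trans (le_max_left _ _), (abs_add_le _ _).trans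
      ((add_le_add (eF p hp ▸ bF p hp) ((abs_of_nonneg (hB p).1).trans_le (hB p).2)).trans
        (le_max_right _ _))⟩) (fun p hp y hy => ?_) (fun p hp => ?_) ?_)
  · refine (h.sub (int_psi' hC hw hψ.continuous hψc hI hQ fun p =>
      (abs_of_nonneg (hB p).1).trans_le (hB p).2)).congr (ae_of_all _ fun p => ?_)
    simp only [Pi.sub_apply]
    ring
  · replace hy : Gam (gw γ) b (p, u p) < y := eG p hp ▸ hy
    obtain ⟨s, a2, a3⟩ := ((((Gc p hp).continuousAt.eventually (gt_mem_nhds hy)).filter_mono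
      (nhdsWithin_le_nhds (s := Iio (u p)))).and self_mem_nhdsWithin).exists
    replace a3 : s < u p := a3
    have a4 : ∀ᶠ a : ST in 𝓝 p, ∀ z ∈ Icc (y₀ - 1) s, w a.1 a.2 = 0 → z ∈ O a.1 a.2 →
        gw γ (a, z) = 0 := by
      refine isCompact_Icc.eventually_forall_of_forall_eventually fun z hz => ?_
      by_cases h : (p.1, p.2, z) ∈ closure {a : ℝ × E3 × ℝ | a.1 ∈ J ∧ γ a.1 a.2.1 a.2.2 ≠ 0}
      · have a5 : ¬_ := fun h' => ((hu1 p hp ((s + u p) / 2) (by linarith [(hu p hp).2])).1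
          ⟨cl p hp z h h' _ (by linarith [hz.2]),
            show y₀ - 1 < _ by linarith [hz.1, hz.2]⟩).not_ge (by linarith)
        filter_upwards [not_frequently.1 a5] with a a7 a8 a9
        exact absurd ⟨a8, a9⟩ a7
      · exact (hnear p hp z h).mono fun a a5 _ _ => a5
    filter_upwards [mem_nhdsWithin_of_mem_nhds a4, self_mem_nhdsWithin, mem_nhdsWithin_of_mem_nhds
      ((Gam_comp hU hg b (hKU p hp) (P := fun _ => s)
        contDiffAt_const).1.continuousAt.eventually (gt_mem_nhds a2))] with a b1 b2 b3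
    refine (eG a b2).trans_lt ((int_le (hgc a (hKU a b2)) (g0 a b2)
      (fun z hz => b1 z ⟨(hu a b2).1.trans hz.1.le, hz.2⟩ b2.2 ((hu1 a b2 z ?_).2 hz.1).1)
        b).trans_lt b3)
    exact (hz.2.trans_lt a3).trans_le (hu p hp).2
  · have triv : (∀ᶠ a in 𝓝[K] p, ∀ z ∈ Ioc (u p) (u a), gw γ (a, z) = 0) → ∃ β : ℝ × E3 → ℝ,
        ContDiffAt ℝ 2 β p ∧ β p = ∫ y in O p.1 p.2, γ p.1 p.2 y ∧
        (∀ᶠ q in 𝓝[K] p, β q ≤ ∫ y in O q.1 q.2, γ q.1 q.2 y) ∧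
        heat w (fun t x => β (t, x)) p.1 p.2
          ≤ (∫ y in O p.1 p.2, heat w (fun t x => γ t x y) p.1 p.2) + Q p := fun h => by
      obtain ⟨a1, a2⟩ := heat_const (y₁ := b) hJ hg (hKU p hp) (hn p hp) (u p)
      exact ⟨_, a1, (eG p hp).symm, (h.and eventually_mem_nhdsWithin).mono fun a ha =>
        low a ha.2 _ ha.1, (a2.trans (eF p hp).symm).trans_le (le_add_of_nonneg_right (hB p).1)⟩
    rcases (hu p hp).2.eq_or_lt with b1 | b1
    · exact triv (eventually_mem_nhdsWithin.mono fun a ha z hz =>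
        absurd (hz.2.trans (hu a ha).2) (b1 ▸ hz.1).not_ge)
    by_cases h : (p.1, p.2, u p) ∈ closure {a : ℝ × E3 × ℝ | a.1 ∈ J ∧ γ a.1 a.2.1 a.2.2 ≠ 0}
    swap
    · have c1 := hnear p hp _ h
      rw [nhds_prod_eq] at c1
      obtain ⟨V, c2, W, c3, c4⟩ := eventually_prod_iff.1 c1
      obtain ⟨s, c5, c6⟩ := (nhdsGE_basis_Icc (a := u p)).eventually_iff.1
        ((c3.and (gt_mem_nhds b1)).filter_mono nhdsWithin_le_nhds)
      have c7 : ContinuousAt (fun a : ST => (a.1, a.2, s)) p := by fun_prop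
      have c8 := (c6 (right_mem_Icc.2 c5.le)).2
      refine triv ?_
      filter_upwards [mem_nhdsWithin_of_mem_nhds c2, self_mem_nhdsWithin, mem_nhdsWithin_of_mem_nhds
        (c7.eventually (op.mem_nhds ⟨hKZ p hp, ((hu1 p hp s c8).2 c5).1⟩))] with a d1 ha d2 z hz
      exact c4 d1 (c6 ⟨hz.1.le, hz.2.trans
        ((hu1 a ha s c8).1 ⟨d2.2, (hu p hp).1.trans_lt c5⟩).le⟩).1
    have c0 : y₀ ≤ u p := closure_minimal (t := {a : ℝ × E3 × ℝ | y₀ ≤ a.2.2})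
      (fun a ha => le_of_not_ge fun h' => ha.2 (h2 _ ha.1 _ _ h'))
      (isClosed_le continuous_const (by fun_prop)) h
    have c1 : O p.1 p.2 = Ioi (u p) := by
      refine Subset.antisymm (fun y hy => mem_Ioi.2 (not_le.1 fun h' => ?_))
        (hu2 p hp b1 ▸ inter_subset_left)
      exact lt_irrefl _ ((hu1 p hp _ b1).1 ⟨up _ _ _ _ hy h', show y₀ - 1 < _ by linarith⟩)
    obtain ⟨e₁, e₂, he⟩ := exists_fr (hn p hp)
    obtain ⟨P, a1, a2, a3, a4⟩ := bar p hp _ h c1 e₁ e₂ he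
    have b1 := (Gam_comp hU hg b (hKU p hp) a1).1
    refine ⟨_, b1, by rw [a2, eG p hp], ?_, ?_⟩
    · filter_upwards [mem_nhdsWithin_of_mem_nhds a3, self_mem_nhdsWithin] with a c1 ha
      exact low a ha _ (low' a ha _ (c1 ha.2))
    have c3 := cd_g hU hg (a := (p, u p)) (hKU p hp)
    have c4 : ∀ e, fderiv ℝ (gw γ) (p, u p) (sp e, 0)
        = ⟪e, gradient (fun x => γ p.1 x (u p)) p.2⟫ := fun e =>
      (slice_fst c3 _).1.symm.trans ((inner_grad_space (diff1 (ContDiffAt.comp p (g := gw γ)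
        (f := fun q : ST => (q, u p)) c3 (by fun_prop))) e).symm.trans (real_inner_comm _ _))
    have c5 : fderiv ℝ (gw γ) (p, u p) (0, 1) = deriv (γ p.1 p.2) (u p) :=
      (HasFDerivAt.comp_hasDerivAt (u p) (l := gw γ) (f := fun s : ℝ => ((p, s) : ST × ℝ))
        (diff1 c3).hasFDerivAt ((hasDerivAt_const _ p).prodMk (hasDerivAt_id _))).deriv.symm
    refine (heat_eq he b1).trans_le ?_
    rw [Lf_Gam hU hg b (hKU p hp) a1, a2, c4, c4, c5, eF p hp]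
    simp only [hw_eq hJ hg (hKU p hp) he]
    change _ - γ p.1 p.2 (u p) * _ + _ + _ ≤ _
    linarith
  · set N := 1 + 2 * |C₀| with hN
    have hN1 : 1 ≤ N := le_add_of_nonneg_right (by positivity)
    refine ⟨M * N + 2 * M * N ^ 2, min (min k 1) (ρ / (2 * N)), by positivity,
      fun p hp η hη => ?_⟩
    rcases le_or_gt (∫ y in O p.1 p.2, γ p.1 p.2 y) η with h | h
    · refine ⟨0, by rw [norm_zero]; positivity, fun q hq e1 _ _ => ?_⟩
      have a1 : 0 ≤ (M * N + 2 * M * N ^ 2) * ‖q.2 - p.2‖ ^ 2 := by positivity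
      have a2 : 0 ≤ (M * N + 2 * M * N ^ 2) * (p.1 - q.1) :=
        mul_nonneg (by positivity) (sub_nonneg.2 e1)
      rw [inner_zero_left]
      linarith [G0 q hq]
    rw [eG p hp] at h ⊢
    obtain ⟨s, a1, a2⟩ := intermediate_value_Icc' (hu p hp).2 (Gc p hp).continuousOn
      (show Gam (gw γ) b (p, u p) - η ∈ Icc _ _ from
        ⟨(intervalIntegral.integral_same (a := b)).trans_le (sub_nonneg.2 h.le), sub_le_self _ hη.le⟩)
    obtain ⟨y, a3, a4⟩ : ∃ y ∈ Ioc (u p) s, gw γ (p, y) ≠ 0 := by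
      by_contra! h'
      have := (int_le (hgc p (hKU p hp)) (g0 p hp) h' b).trans_eq a2
      simp only [Gam] at this
      linarith
    have a5 : Gam (gw γ) b (p, u p) - η ≤ Gam (gw γ) b (p, y) := a2.symm.trans_le
      (int_le (hgc p (hKU p hp)) (g0 p hp) (fun z hz => absurd (hz.2.trans a3.2) hz.1.not_ge) b)
    have a6 : y < b := not_le.1 fun h' => a4 (gz p (hKU p hp) y (Or.inr ((le_max_right _ _).trans h')))
    obtain ⟨L, l1, l2⟩ := crude p hp y a4 ((hu1 p hp y a6).2 a3.1).1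
    obtain ⟨t1, -, t2⟩ := hT (p, y) ⟨hp.1, (hu p hp).1.trans a3.1.le, a6.le⟩
    have hC0 : 0 ≤ C₀ := (norm_nonneg _).trans l1
    rw [abs_of_nonneg hC0] at hN
    set D := fderiv ℝ (Gam (gw γ) b) (p, y)
    refine ⟨(InnerProductSpace.toDual ℝ E3).symm (D.comp ((ContinuousLinearMap.inr ℝ ℝ E3).prod L)),
      ?_, fun q hq e1 e2 e3 => ?_⟩
    · rw [LinearIsometryEquiv.norm_map]
      refine le_trans (ContinuousLinearMap.opNorm_le_bound _ (by positivity) fun v => ?_)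
        (le_add_of_nonneg_right (by positivity))
      refine (D.le_of_opNorm_le t1 _).trans ?_
      rw [mul_assoc]
      refine mul_le_mul_of_nonneg_left (norm_prod_le_iff.2 ⟨?_, ?_⟩) hM
      · simpa using le_mul_of_one_le_left (norm_nonneg v) hN1
      · exact (L.le_of_opNorm_le l1 v).trans
          (mul_le_mul_of_nonneg_right (by linarith) (norm_nonneg v))
    rw [InnerProductSpace.toDual_symm_apply]
    simp only [le_min_iff] at e2 e3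
    set v := q.2 - p.2 with hv
    set τ := p.1 - q.1 with hτ
    have τ0 : 0 ≤ τ := sub_nonneg.2 e1
    have v0 := norm_nonneg v
    have v1 : ‖v‖ ^ 2 ≤ ‖v‖ := by nlinarith [e3.1.2]
    have f1 := low q hq _ (low' q hq _ (l2 q hq.2 e1 e2.1.1 e3.1.1))
    have f2 : ‖(((-τ, v), L v + C₀ * ‖v‖ ^ 2 + C₀ * τ) : ST × ℝ)‖ ≤ N * (‖v‖ + τ) := by
      have f3 := abs_le.1 (L.le_of_opNorm_le l1 v)
      have f4 := mul_le_mul_of_nonneg_left v1 hC0
      have f5 := mul_nonneg hC0 τ0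
      have f6 := mul_nonneg hC0 (sq_nonneg ‖v‖)
      have f7 := mul_nonneg hC0 v0
      simp only [norm_prod_le_iff, Real.norm_eq_abs, abs_neg, abs_of_nonneg τ0, abs_le, hN]
      refine ⟨⟨?_, ?_⟩, ?_, ?_⟩ <;> linarith
    have f3 := t2 _ (f2.trans (by
      have := (le_div_iff₀' (by positivity)).1 e2.2
      have := (le_div_iff₀' (by positivity)).1 e3.2
      linarith))
    have f4 : ((p, y) : ST × ℝ) + ((-τ, v), L v + C₀ * ‖v‖ ^ 2 + C₀ * τ)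
        = (q, y + L v + C₀ * ‖v‖ ^ 2 + C₀ * τ) := by
      ext <;> simp [hv, hτ, add_assoc]
    have f5 : (((-τ, v), L v + C₀ * ‖v‖ ^ 2 + C₀ * τ) : ST × ℝ)
        = ((0, v), L v) + ((-τ, 0), C₀ * ‖v‖ ^ 2 + C₀ * τ) := by simp [add_assoc]
    have f6 : ‖(((-τ, 0), C₀ * ‖v‖ ^ 2 + C₀ * τ) : ST × ℝ)‖ ≤ N * (‖v‖ ^ 2 + τ) := by
      have f5 := mul_nonneg hC0 τ0
      have f6 := mul_nonneg hC0 (sq_nonneg ‖v‖)
      simp only [norm_prod_le_iff, Real.norm_eq_abs, abs_neg, abs_of_nonneg τ0, abs_le, hN,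
        norm_zero]
      refine ⟨⟨?_, ?_⟩, ?_, ?_⟩ <;> linarith [sq_nonneg ‖v‖]
    have f7 := (abs_le.1 ((D.le_of_opNorm_le t1 _).trans (mul_le_mul_of_nonneg_left f6 hM))).1
    have f8 : ‖(((-τ, v), L v + C₀ * ‖v‖ ^ 2 + C₀ * τ) : ST × ℝ)‖ ^ 2
        ≤ 2 * N ^ 2 * (‖v‖ ^ 2 + τ) := by
      refine (pow_le_pow_left₀ (norm_nonneg _) f2 2).trans ?_
      rw [mul_pow, mul_comm 2, mul_assoc]
      exact mul_le_mul_of_nonneg_left (by nlinarith [sq_nonneg (‖v‖ - τ), e2.1.2]) (sq_nonneg N)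
    have f9 := mul_le_mul_of_nonneg_left f8 hM
    rw [f4] at f3
    rw [f5, map_add, ← f5] at f3
    change _ + D ((0, v), L v) - _ - _ - _ ≤ _
    linarith

end Vale.Agent.P218WO
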