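import Vale.Agent.P218WO.Om

/-! Barriers from above for the lower boundary of the set of levels at quiet points. -/

open MeasureTheory Set Filter Topology Metric
open scoped RealInnerProductSpace ContDiff

namespace Vale.Agent.P218WO

open Vale.Agent.P218UA Vale.Agent.P218WA Vale.Agent.P218UO Vale.Agent.P218UM Vale.Agent.P218UG
  Vale.Agent.P218UL

variable {w : ℝ → E3 → ℝ} {I J Z : Set ℝ} {A σ θ δ κ c₁ : ℝ}

/-- `P` touches the lower boundary of the set of levels from above -/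
structure Tch (w : ℝ → E3 → ℝ) (I : Set ℝ) (A σ θ : ℝ) (p : ST) (y : ℝ) (P : ST → ℝ) : Prop where
  cd : ContDiffAt ℝ 2 P p
  eq : P p = y
  above : ∀ᶠ q in 𝓝 p, w q.1 q.2 = 0 → ∀ y', P q < y' → y' ∈ Om w I A σ θ q.1 q.2

lemma poly_calc (p : ST) (L : E3 →L[ℝ] ℝ) (T k a K : ℝ) {β : ST → ℝ}
    (hβ : β = fun q : ST => T + L (q.2 - p.2) - k * ‖q.2 - p.2‖ ^ 2 - a * (q.1 - p.1)
      - K * (q.1 - p.1) ^ 2) :
    ContDiffAt ℝ 2 β p ∧ β p = T ∧ fderiv ℝ β p tv = -a ∧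
      ∀ e, fderiv ℝ β p (sp e) = L e ∧ D2 β p (sp e) = -(2 * k * ‖e‖ ^ 2) := by
  have h0 : ContDiffAt ℝ 2 β p := by
    rw [hβ]
    exact (((contDiffAt_const.add (L.contDiff.contDiffAt.comp p (by fun_prop))).sub
      (contDiffAt_const.mul (ContDiffAt.norm_sq ℝ (by fun_prop)))).sub (by fun_prop)).sub
      (by fun_prop)
  have h1 : ∀ q v : ST, fderiv ℝ β q v
      = L v.2 - k * (2 * ⟪q.2 - p.2, v.2⟫) - a * v.1 - K * (2 * (q.1 - p.1) * v.1) := fun q v => by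
    have a1 : HasFDerivAt (fun q : ST => q.2 - p.2) (ContinuousLinearMap.snd ℝ ℝ E3) q :=
      hasFDerivAt_snd.sub_const p.2
    have a2 : HasFDerivAt (fun q : ST => q.1 - p.1) (ContinuousLinearMap.fst ℝ ℝ E3) q :=
      hasFDerivAt_fst.sub_const p.1
    have a3 : HasFDerivAt (fun q : ST => T + L (q.2 - p.2) - k * ‖q.2 - p.2‖ ^ 2 - a * (q.1 - p.1)
        - K * (q.1 - p.1) ^ 2) _ q := ((((L.hasFDerivAt.comp q a1).const_add T).sub
      (a1.norm_sq.const_mul k)).sub (a2.const_mul a)).sub ((a2.pow 2).const_mul K)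
    rw [hβ, a3.fderiv]
    simp [inner_sub_left]
  refine ⟨h0, by simp [hβ], by simp [h1], fun e => ⟨by simp [h1], ?_⟩⟩
  have h2 := (diff2 h0).hasFDerivAt.clm_apply (hasFDerivAt_const (sp e) p)
  have a1 : HasFDerivAt (fun q : ST => q.2 - p.2) (ContinuousLinearMap.snd ℝ ℝ E3) p :=
    hasFDerivAt_snd.sub_const p.2
  have h3 := ((((a1.inner ℝ (hasFDerivAt_const e p)).const_mul 2).const_mul k).const_sub (L e))
  simp only [h1, mul_zero, sub_zero] at h2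
  have h4 := congrArg (fun M : ST →L[ℝ] ℝ => M (sp e)) (h2.unique h3)
  simp only [D2]
  simp at h4
  rw [h4]
  ring

/-- the barrier given by the averaged mass ratio -/
lemma bar_mass' (hC : Calc) (hM : MonoW) (hw : IsW0 w I Z A) (hσ : 0 < σ)
    (hσA : σ * A ^ 2 ≤ 1 / 10 ^ 5) {p : ST} {y s L : ℝ} (hZ : p.1 ∉ Z)
    (ha : Icc (p.1 - σ * Real.exp (2 * s)) p.1 ⊆ I) (hR : mm w (p, s) ≤ 11 / 10)
    (h : 3 / 2 ≤ tb w σ (p, s)) (hs : y - L ≤ s) (hy : s + 10 * (2 * A - tb w σ (p, s)) = y) :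
    ∃ P, Tch w I A σ θ p y P ∧ ∀ e₁ e₂, Fr (Nu w p) e₁ e₂ → Gf e₁ e₂ P p ≤ Lf e₁ e₂ P p ∧
      Real.exp (2 * y) * Gf e₁ e₂ P p ≤ 204800 * A ^ 2 * Real.exp (2 * L) := by
  have hA := hw.one_le
  obtain ⟨M, a, K, h1, h2, h3⟩ := tb_bar hC hM hw hσ hZ ha
  obtain ⟨hT, b0, b1, b2⟩ := poly_calc p M (tb w σ (p, s)) (5 * A / Real.exp s ^ 2) a K rfl
  set β : ST → ℝ := fun q => tb w σ (p, s) + M (q.2 - p.2)
    - 5 * A / Real.exp s ^ 2 * ‖q.2 - p.2‖ ^ 2 - a * (q.1 - p.1) - K * (q.1 - p.1) ^ 2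
  refine ⟨fun q => (s + 20 * A) + (-10) * β q,
    ⟨contDiffAt_const.add (contDiffAt_const.mul hT), by linarith, ?_⟩, fun e₁ e₂ hF => ?_⟩
  · filter_upwards [ev_win' hw (f := fun q : ST => q.1 - σ * Real.exp (2 * s)) (g := fun q => q.1)
      (by fun_prop) (by fun_prop) (win_l hσ ha) (win_r hσ ha), h3,
      hT.continuousAt.eventually (lt_mem_nhds (show 13 / 10 < β p by linarith))]
      with q e1 e2 e3 _ y' e4
    change β q ≤ tbar w σ q.1 q.2 s at e2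
    exact Or.inr ⟨s, e1, by linarith, by linarith⟩
  have hr := Real.exp_pos s
  have e : Real.exp (2 * s) = Real.exp s ^ 2 := by rw [← Real.exp_nat_mul]; norm_num
  have h4 : ∀ v : E3, ‖v‖ = 1 → M v ^ 2 ≤ 1024 * A ^ 2 / Real.exp s ^ 2 := fun v hv => by
    have h5 : |M v| ≤ 32 * A / Real.exp s := (M.le_opNorm v).trans (by rwa [hv, mul_one])
    exact (sq_le_sq' (abs_le.1 h5).1 (abs_le.1 h5).2).trans_eq (by ring)
  have hG : Gf e₁ e₂ (fun q => (s + 20 * A) + (-10) * β q) p ≤ 204800 * A ^ 2 / Real.exp s ^ 2 := by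
    rw [Gf, fderiv_aff hT, fderiv_aff hT, (b2 _).1, (b2 _).1]
    have : 204800 * A ^ 2 / Real.exp s ^ 2 = 200 * (1024 * A ^ 2 / Real.exp s ^ 2) := by ring
    linarith [h4 _ hF.n1, h4 _ hF.n2]
  constructor
  · refine hG.trans ?_
    rw [Lf, fderiv_aff hT, D2_aff hT, D2_aff hT, b1, (b2 _).2, (b2 _).2, hF.n1, hF.n2]
    have h5 : 3 / 10 / (σ * Real.exp s ^ 2) ≤ a :=
      le_trans (e ▸ div_le_div_of_nonneg_right (by nlinarith) (by positivity)) h2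
    have h6 : 204800 * A ^ 2 / Real.exp s ^ 2 + 40 * (5 * A / Real.exp s ^ 2)
        ≤ 10 * (3 / 10 / (σ * Real.exp s ^ 2)) := by
      have : 10 * (3 / 10 / (σ * Real.exp s ^ 2)) = 3 / σ / Real.exp s ^ 2 := by field_simp
      rw [this, ← mul_div_assoc, ← add_div]
      refine div_le_div_of_nonneg_right ?_ (by positivity)
      rw [le_div_iff₀ hσ]
      nlinarith [mul_le_mul_of_nonneg_left (show A ≤ A ^ 2 by nlinarith) hσ.le]
    linarith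
  · refine (mul_le_mul_of_nonneg_left hG (Real.exp_pos _).le).trans ?_
    have h6 : Real.exp (2 * y) ≤ Real.exp (2 * L) * Real.exp s ^ 2 := by
      rw [sq, ← Real.exp_add, ← Real.exp_add]
      exact Real.exp_le_exp.2 (by linarith)
    rw [← mul_div_assoc, div_le_iff₀ (by positivity)]
    nlinarith [mul_le_mul_of_nonneg_left h6 (by positivity : 0 ≤ 204800 * A ^ 2)]

/-- the two-point barrier -/
lemma bar_sep' (hw : IsFlow w J) (hθ : 0 < θ) (hθ1 : θ ≤ 1 / 10) (hθc : θ ≤ c₁ / 10) {p : ST}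
    (hp : p.1 ∈ J) {y : ℝ} (h0 : w p.1 p.2 = 0) {z : E3} (hz : w p.1 z = 0)
    (hd : ‖z - p.2‖ = Real.exp y) (hh : c₁ * Real.exp (y + 1 / 2) ≤ |⟪z - p.2, Nu w p⟫|)
    (hn : z - p.2 = ⟪Nu w (p.1, z), z - p.2⟫ • Nu w (p.1, z)) :
    ∃ P, Tch w I A σ θ p y P ∧ ∃ c, c₁ ≤ c ∧ c ≤ 1 ∧ tilt (w p.1) p.2 z = 1 - c ∧
      ∀ e₁ e₂, Fr (Nu w p) e₁ e₂ → Gf e₁ e₂ P p = (1 - c ^ 2) / Real.exp y ^ 2 ∧
        Lf e₁ e₂ P p = 2 * c * (1 - c) / Real.exp y ^ 2 := by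
  have hr := Real.exp_pos y
  obtain ⟨k, hk, hkc⟩ : ∃ k : ℝ, k ^ 2 = Real.exp y ^ 2 ∧
      k⁻¹ * ⟪z - p.2, Nu w p⟫ = |⟪z - p.2, Nu w p⟫| / Real.exp y := by
    rcases le_total 0 ⟪z - p.2, Nu w p⟫ with h | h
    · exact ⟨Real.exp y, rfl, by rw [abs_of_nonneg h]; field_simp⟩
    · exact ⟨-Real.exp y, by ring, by rw [abs_of_nonpos h]; field_simp⟩
  have hk0 : k ≠ 0 := fun h => by rw [h] at hk; nlinarith
  obtain ⟨e, he⟩ : ∃ e, e = k⁻¹ • (z - p.2) := ⟨_, rfl⟩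
  have hde : z - p.2 = k • e := by rw [he, smul_smul, mul_inv_cancel₀ hk0, one_smul]
  have hee : ⟪e, e⟫ = 1 := by
    rw [he, real_inner_smul_left, real_inner_smul_right, real_inner_self_eq_norm_sq, hd, ← hk]
    field_simp
  have hνν : ⟪Nu w p, Nu w p⟫ = 1 := by
    rw [real_inner_self_eq_norm_sq, norm_Nu hw hp h0]; norm_num
  obtain ⟨c, hc⟩ : ∃ c, ⟪e, Nu w p⟫ = c := ⟨_, rfl⟩
  have hcc : c₁ ≤ c := by
    rw [← hc, he, real_inner_smul_left, hkc, le_div_iff₀ hr]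
    exact le_trans (mul_le_mul_of_nonneg_left (Real.exp_le_exp.2 (by linarith)) (by linarith)) hh
  have hc0 : 0 < 1 + c := by linarith
  have hc1 : c ≤ 1 := by
    have h1 := real_inner_self_nonneg (x := e - Nu w p)
    rw [inner_sub_left, inner_sub_right, inner_sub_right, hee, hνν, real_inner_comm e, hc] at h1
    linarith
  have ha0 : ⟪Nu w (p.1, z), z - p.2⟫ ≠ 0 := fun h => by
    rw [hn, h, zero_smul, norm_zero] at hd
    exact hr.ne hd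
  have ht : tilt (w p.1) p.2 z = 1 - c := by
    have h1 := congrArg norm hn
    rw [norm_smul, norm_Nu hw (p := (p.1, z)) hp hz, mul_one, hd, Real.norm_eq_abs] at h1
    rw [← hc, he, real_inner_smul_left, hkc, hn, real_inner_smul_left, abs_mul, ← h1,
      mul_div_cancel_left₀ _ hr.ne', real_inner_comm]
    rfl
  obtain ⟨R, r1, r2, r3⟩ := exists_rot hνν hee hc hc0
  have hνe : ∀ τ, ⟪Nu w (p.1, z), R τ⟫ = 0 := fun τ => by
    have h1 : ⟪z - p.2, R τ⟫ = 0 := by rw [hde, real_inner_smul_left, r2, mul_zero]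
    rw [hn, real_inner_smul_left] at h1
    exact (mul_eq_zero.1 h1).resolve_left ha0
  have hRn : ∀ τ, ⟪τ, Nu w p⟫ = 0 → ‖τ‖ = 1 → ‖R τ‖ = 1 := fun τ h1 h2 => by
    have h3 := r3 τ τ h1 h1
    rw [real_inner_self_eq_norm_sq, real_inner_self_eq_norm_sq, h2] at h3
    exact (pow_left_inj₀ (norm_nonneg _) zero_le_one two_ne_zero).1 h3
  obtain ⟨V, v1, v2, v3, v4, v5, v6⟩ := exists_V hw hp hz R hνe
  have hSc : ContDiffAt ℝ 2 (fun q => ⟪V q, V q⟫) p := v1.inner ℝ v1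
  have hSp : ⟪V p, V p⟫ = Real.exp y ^ 2 := by rw [real_inner_self_eq_norm_sq, v2, hd]
  have hS0 : 0 < ⟪V p, V p⟫ := by rw [hSp]; positivity
  refine ⟨fun q => 0 + 2⁻¹ * Real.log ⟪V q, V q⟫,
    ⟨contDiffAt_const.add (contDiffAt_const.mul (hSc.log hS0.ne')), ?_, ?_⟩, c, hcc, hc1, ht,
    fun e₁ e₂ hF => ?_⟩
  · rw [hSp, Real.log_pow, Real.log_exp]
    ring
  · have h2 : ∀ᶠ q in 𝓝 p, 3 * θ * ‖V q‖ < |⟪V q, Nu w q⟫| := by
      refine (continuousAt_const.mul v1.continuousAt.norm).eventually_lt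
        (v1.continuousAt.inner (cd_Nu hw hp).continuousAt).abs ?_
      change 3 * θ * ‖V p‖ < _
      rw [v2]
      exact (height_lt hθ hθc hd.le).trans_le hh
    filter_upwards [v3, h2, continuousAt_fst.eventually (hw.isOpen.mem_nhds hp),
      hSc.continuousAt.eventually (lt_mem_nhds hS0)] with q e1 e2 e3 e4 e5 y' e6
    refine Or.inl (not_reg hw e3 e5 e1 hθ.le hθ1 ?_ (by rwa [add_sub_cancel_right]))
    have h3 : ⟪V q, V q⟫ < Real.exp y' ^ 2 := by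
      rw [sq, ← Real.exp_add, ← Real.log_lt_iff_lt_exp e4]
      linarith
    rw [real_inner_self_eq_norm_sq] at h3
    rw [add_sub_cancel_right]
    exact lt_of_pow_lt_pow_left₀ 2 (Real.exp_pos _).le h3
  have hl := lap_frame (flow_slice hw hp) hz (hRn _ hF.o13 hF.n1) (hRn _ hF.o23 hF.n2)
    ((r3 _ _ hF.o13 hF.o23).trans hF.o12) ((real_inner_comm _ _).trans (hνe e₁))
    ((real_inner_comm _ _).trans (hνe e₂))
  rw [hl] at v4
  rw [← hk]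
  exact log_calc (h := fun τ => ⟪R τ, hs (w p.1) z (R τ)⟫) v1 hF hee hc hc0 hk0
    (v2.trans hde) v4 (fun τ => (v5 τ).trans (r1 τ)) v6

/-- at a quiet point the lower boundary has a barrier of one of the two types -/
theorem exists_bar' (hC : Calc) (hM : MonoW) (hL : CellW) (hD : CylDensStmt) (hw : IsW0 w I Z A)
    (hq : QS w I A c₁ θ σ δ) (hσ : 0 < σ) (hσA : σ * A ^ 2 ≤ 1 / 10 ^ 5) (hθ : 0 < θ)
    (hθc : θ ≤ c₁ / 10) (hc : c₁ ≤ 1) {p : ST} {y : ℝ} (hp : w p.1 p.2 = 0)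
    (hQ : Quiet w I δ p.1 p.2 y) (hy : Om w I A σ θ p.1 p.2 = Ioi y) :
    ∃ P, Tch w I A σ θ p y P ∧
      ((∃ z c, Adm (w p.1) θ c₁ p.2 z ∧ ‖z - p.2‖ = Real.exp y ∧ c₁ ≤ c ∧ c ≤ 1 ∧
        tilt (w p.1) p.2 z = 1 - c ∧ ∀ e₁ e₂, Fr (Nu w p) e₁ e₂ →
          Gf e₁ e₂ P p = (1 - c ^ 2) / Real.exp y ^ 2 ∧
          Lf e₁ e₂ P p = 2 * c * (1 - c) / Real.exp y ^ 2) ∨
      ((∃ s ∈ Icc (y - (20 * A - 13 + 3)) y, mk (ar (w p.1)) p.2 (Real.exp s) ≤ 11 / 10 ∧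
        3 / 2 ≤ tbar w σ p.1 p.2 s) ∧ ∀ e₁ e₂, Fr (Nu w p) e₁ e₂ → Gf e₁ e₂ P p ≤ Lf e₁ e₂ P p ∧
          Real.exp (2 * y) * Gf e₁ e₂ P p
            ≤ 204800 * A ^ 2 * Real.exp (2 * (20 * A - 13 + 3)))) := by
  have hA := hw.one_le
  have hσ1 : σ ≤ 1 := by nlinarith [mul_le_mul_of_nonneg_left (show 1 ≤ A ^ 2 by nlinarith) hσ.le]
  have hθ1 : θ ≤ 1 / 10 := by linarith
  obtain ⟨_, _, hpI, -, hl⟩ := hw.loc ⟨quiet_mem hQ, hw.notMem hp⟩
  have hf : ∃ᶠ a : ST × ℝ in 𝓝 (p, y), w a.1.1 a.1.2 = 0 ∧ a.2 ∈ Om w I A σ θ a.1.1 a.1.2 := by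
    have h1 : Tendsto (fun s : ℝ => ((p, s) : ST × ℝ)) (𝓝[>] y) (𝓝 (p, y)) :=
      (Continuous.tendsto' (by fun_prop) _ _ rfl).mono_left nhdsWithin_le_nhds
    refine h1.frequently (Eventually.frequently ?_)
    filter_upwards [self_mem_nhdsWithin] with s hs
    exact ⟨hp, by rw [hy]; exact hs⟩
  have hno : ∀ s, s ≤ y → s ∉ Om w I A σ θ p.1 p.2 := fun s hs h => by
    rw [hy] at h
    exact absurd h (not_lt.2 hs)
  rcases key' hC hL hw hq hσ hσ1 (hw.notMem hp) hQ hf with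
    ⟨z, h1, h2, h3⟩ | ⟨s, h1, h2, h3⟩ | ⟨s, h0, h1, h2, h3⟩
  · have far : ∀ z', w p.1 z' = 0 → 3 * θ * ‖z' - p.2‖ < |⟪z' - p.2, Nu w p⟫| →
        Real.exp y ≤ ‖z' - p.2‖ := fun z' e1 e2 =>
      not_lt.1 fun e3 => hno y le_rfl (Or.inl (not_reg hl.toIsFlow hpI hp e1 hθ.le hθ1 e3 e2))
    have h4 := (height_lt hθ hθc h2).trans_le h3
    have h5 := le_antisymm h2 (far z h1 h4)
    have h6 := normal_of_min hl.toIsFlow hpI h1 (x := p.2) (by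
      filter_upwards [(by fun_prop : ContinuousAt (fun z' : E3 => 3 * θ * ‖z' - p.2‖) z).eventually_lt
        (by fun_prop : ContinuousAt (fun z' : E3 => |⟪z' - p.2, Nu w p⟫|) z) h4] with z' e1 e2
      exact h5 ▸ far z' e2 e1)
    obtain ⟨P, hP, c, hc'⟩ := bar_sep' (I := I) (A := A) (σ := σ) hl.toIsFlow hθ hθ1 hθc hpI hp h1
      h5 h3 h6
    refine ⟨P, hP, Or.inl ⟨z, c, ⟨hp, h1, fun h => ?_, ?_, le_trans ?_ h3, h6⟩, h5, hc'⟩⟩
    · rw [h, sub_self, norm_zero] at h5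
      exact (Real.exp_pos y).ne h5
    · by_contra h
      rw [h5] at h
      exact hno y le_rfl (Or.inl h)
    · exact mul_le_mul_of_nonneg_left (h2.trans (Real.exp_le_exp.2 (by linarith))) (by linarith)
  · exact absurd (Or.inr ⟨s, quiet_win hσ1 hQ h1, h2, h3⟩) (hno y le_rfl)
  · have h4 := quiet_win hσ1 hQ (show s ≤ y + 1 by linarith)
    have h5 : mk (ar (w p.1)) p.2 (Real.exp s) ≤ 11 / 10 := by
      refine (mk_le_of_reg hD (flow_slice hl.toIsFlow hpI).smooth.continuous hθ1 (Real.exp_pos s)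
        ?_).trans (by norm_num)
      by_contra h
      exact hno s (by linarith) (Or.inl h)
    obtain ⟨P, hP, hP'⟩ := bar_mass' (θ := θ) (L := 20 * A - 13 + 3) hC hM hw hσ hσA (hw.notMem hp)
      h4 h5 h2 (by linarith) (le_antisymm h3 (not_lt.1 fun h => hno y le_rfl
        (Or.inr ⟨s, h4, lt_of_lt_of_le (by norm_num) h2, h⟩)))
    exact ⟨P, hP, Or.inr ⟨⟨s, ⟨by linarith, by linarith⟩, h5, h2⟩, hP'⟩⟩

end Vale.Agent.P218WO
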