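import Vale.Agent.P218WO.Asm
import Vale.Agent.P218WO.Sep
import Mathlib.Analysis.SpecialFunctions.SmoothTransition

/-! The differential inequality for the truncated separation functional. -/

open MeasureTheory Set Filter Topology Metric
open scoped RealInnerProductSpace ContDiff

namespace Vale.Agent.P218WO

open Vale.Agent.P218UA Vale.Agent.P218WA Vale.Agent.P218UO Vale.Agent.P218UM Vale.Agent.P218UL
open Vale.Agent.P218UV (trk)

lemma exists_phi : ∃ φ : ℝ → ℝ, ContDiff ℝ 2 φ ∧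
    (∀ v, HasDerivAt φ (max (1 - Real.exp (v / 2)) 0 ^ 2) v) ∧ (∀ v, φ v ≤ 0 ∧ φ v ≤ v + 3) ∧
    ∀ v, 0 ≤ v → φ v = 0 := by
  have h0 : ContDiff ℝ 1 fun v : ℝ => max (1 - Real.exp (v / 2)) 0 ^ 2 :=
    contDiff_max_sq.comp (by fun_prop)
  have h1 : ∀ v, HasDerivAt (fun v => ∫ s in (0 : ℝ)..v, max (1 - Real.exp (s / 2)) 0 ^ 2)
      (max (1 - Real.exp (v / 2)) 0 ^ 2) v := fun v =>
    (h0.continuous.integral_hasStrictDerivAt 0 v).hasDerivAt
  have h2 : ∀ v, 0 ≤ v → ∫ s in (0 : ℝ)..v, max (1 - Real.exp (s / 2)) 0 ^ 2 = 0 := fun v hv => by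
    rw [intervalIntegral.integral_congr (g := fun _ => 0) fun s hs => ?_,
      intervalIntegral.integral_zero]
    rw [uIcc_of_le hv] at hs
    simp [max_eq_right (sub_nonpos.2 (Real.one_le_exp (show 0 ≤ s / 2 by linarith [hs.1])))]
  refine ⟨_, ?_, h1, fun v => ?_, h2⟩
  · rw [show (2 : WithTop ℕ∞) = 1 + 1 from rfl, contDiff_succ_iff_deriv]
    exact ⟨fun v => (h1 v).differentiableAt, by simp, by rwa [funext fun v => (h1 v).deriv]⟩
  rcases le_total 0 v with hv | hv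
  · rw [h2 v hv]
    exact ⟨le_rfl, by linarith⟩
  refine ⟨?_, ?_⟩
  · rw [intervalIntegral.integral_symm, neg_nonpos]
    exact intervalIntegral.integral_nonneg hv fun _ _ => sq_nonneg _
  rw [intervalIntegral.integral_eq_sub_of_hasDerivAt
    (f := fun s => s - 4 * Real.exp (s / 2) + Real.exp (s / 2) ^ 2) (fun s hs => ?_)
    (h0.continuous.intervalIntegrable _ _)]
  · have := Real.exp_le_one_iff.2 (show v / 2 ≤ 0 by linarith)
    simp only [zero_div, Real.exp_zero]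
    nlinarith [Real.exp_pos (v / 2)]
  · rw [uIcc_of_ge hv] at hs
    have h3 := ((hasDerivAt_id s).div_const 2).exp
    rw [max_eq_left (sub_nonneg.2 (Real.exp_le_one_iff.2 (show s / 2 ≤ 0 by linarith [hs.2])))]
    exact (((hasDerivAt_id s).sub (h3.const_mul 4)).add (h3.pow 2)).congr_deriv (by simp; ring)

/-- the cut-off function for the levels -/
lemma exists_cut : ∃ M : ℝ, 0 ≤ M ∧ ∀ y₀ ys : ℝ, y₀ + 1 ≤ ys → ∃ h : ℝ → ℝ, ContDiff ℝ 2 h ∧
    (∀ y, 0 ≤ h y ∧ h y ≤ 1 ∧ h y ≤ 21 * Real.exp (y - ys)) ∧ (∀ y ≤ y₀, h y = 0) ∧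
    (∀ y, ys ≤ y → h y = 1 ∧ deriv h y = 0) ∧ ∀ y ≤ ys, ∃ m, 0 ≤ m ∧ m ≤ M * Real.exp (y₀ - ys) ∧
      (y₀ + 1 < y → m = 0) ∧ deriv h y ≤ (1 - Real.exp ((y - ys) / 2)) * h y + m := by
  obtain ⟨φ, p1, p2, p3, p4⟩ := exists_phi
  have s1 : ContDiff ℝ 2 Real.smoothTransition := Real.smoothTransition.contDiff
  have s2 : ∀ x, 1 ≤ x → deriv Real.smoothTransition x = 0 := fun x hx =>
    IsLocalMax.deriv_eq_zero (Eventually.of_forall fun z =>
      (Real.smoothTransition.le_one z).trans_eq (Real.smoothTransition.one_of_one_le hx).symm)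
  have s3 : ∀ x, x ≤ 0 → deriv Real.smoothTransition x = 0 := fun x hx =>
    IsLocalMin.deriv_eq_zero (Eventually.of_forall fun z =>
      (Real.smoothTransition.zero_of_nonpos hx).trans_le (Real.smoothTransition.nonneg z))
  obtain ⟨M, hM⟩ := (isCompact_Icc (a := (0 : ℝ)) (b := 1)).exists_bound_of_continuousOn
    (s1.continuous_deriv (by norm_num)).continuousOn
  have hM0 : 0 ≤ M := (norm_nonneg _).trans (hM 0 (by simp))
  have e3 : ∀ v, Real.exp (φ v) ≤ 21 * Real.exp v := fun v => by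
    refine (Real.exp_le_exp.2 (p3 v).2).trans ?_
    rw [Real.exp_add, mul_comm, show (3 : ℝ) = (3 : ℕ) * 1 by norm_num, Real.exp_nat_mul]
    exact mul_le_mul_of_nonneg_right ((pow_le_pow_left₀ (Real.exp_pos 1).le
      Real.exp_one_lt_d9.le 3).trans (by norm_num)) (Real.exp_pos v).le
  refine ⟨21 * Real.exp 1 * M, by positivity, fun y₀ ys hy =>
    ⟨fun y => Real.exp (φ (y - ys)) * Real.smoothTransition (y - y₀), by fun_prop, fun y => ?_,
      fun y h => by simp only [Real.smoothTransition.zero_of_nonpos (sub_nonpos.2 h), mul_zero], ?_⟩⟩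
  · have a1 := Real.smoothTransition.nonneg (y - y₀)
    have a2 := mul_le_of_le_one_right (Real.exp_pos (φ (y - ys))).le
      (Real.smoothTransition.le_one (y - y₀))
    exact ⟨by positivity, a2.trans (Real.exp_le_one_iff.2 (p3 _).1), a2.trans (e3 _)⟩
  have d : ∀ y, deriv (fun y => Real.exp (φ (y - ys)) * Real.smoothTransition (y - y₀)) y
      = max (1 - Real.exp ((y - ys) / 2)) 0 ^ 2
        * (Real.exp (φ (y - ys)) * Real.smoothTransition (y - y₀))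
        + Real.exp (φ (y - ys)) * deriv Real.smoothTransition (y - y₀) := fun y =>
    (((p2 (y - ys)).comp_sub_const y ys).exp.mul
      ((s1.differentiable (by norm_num) (y - y₀)).hasDerivAt.comp_sub_const y y₀)).deriv.trans
      (by ring)
  refine ⟨fun y h => ⟨?_, ?_⟩, fun y h => ⟨max (Real.exp (φ (y - ys))
    * deriv Real.smoothTransition (y - y₀)) 0, le_max_right _ _, max_le ?_ (by positivity),
    fun h' => by simp [s2 _ (show 1 ≤ y - y₀ by linarith)], ?_⟩⟩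
  · simp only [p4 _ (sub_nonneg.2 h), Real.exp_zero, one_mul]
    exact Real.smoothTransition.one_of_one_le (by linarith)
  · rw [d, s2 _ (by linarith), max_eq_right (sub_nonpos.2 (Real.one_le_exp (by linarith)))]
    simp
  · by_cases h' : y - y₀ ∈ Icc (0 : ℝ) 1
    · refine (mul_le_mul (e3 _) ((le_abs_self _).trans (hM _ h')) ?_ (by positivity)).trans ?_
      · exact Real.smoothTransition.monotone.deriv_nonneg
      · rw [mul_right_comm _ M, mul_assoc 21 (Real.exp 1), ← Real.exp_add]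
        gcongr
        linarith [h'.2]
    · rw [(not_and_or.1 h').elim (fun h => s3 _ (not_le.1 h).le) fun h => s2 _ (not_le.1 h).le,
        mul_zero]
      positivity
  · rw [d]
    have a1 := Real.exp_le_one_iff.2 (show (y - ys) / 2 ≤ 0 by linarith)
    have a2 := Real.smoothTransition.nonneg (y - y₀)
    rw [max_eq_left (sub_nonneg.2 a1)]
    exact add_le_add (mul_le_mul_of_nonneg_right (by nlinarith [Real.exp_pos ((y - ys) / 2)])
      (by positivity)) (le_max_left _ _)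

lemma grad_mul (c : ℝ) (f : E3 → ℝ) : gradient (fun x => c * f x) = c • gradient f := by
  ext1 x
  change (InnerProductSpace.toDual ℝ E3).symm (fderiv ℝ (c • f) x) = _
  rw [fderiv_const_smul_field, Pi.smul_apply, map_smul]
  rfl

lemma heat_mul (w f : ℝ → E3 → ℝ) (c t : ℝ) (x : E3) :
    heat w (fun t x => c * f t x) t x = c * heat w f t x := by
  simp only [heat, hs, grad_mul, fderiv_const_smul_field, deriv_const_mul_field, trT, Pi.smul_apply,
    ContinuousLinearMap.toLinearMap_smul, map_smul, smul_apply, real_inner_smul_left, smul_eq_mul]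
  ring

lemma alg {g q h h' gy α c a₁ a₂ b₁ b₂ L e D C R : ℝ} (g0 : 0 ≤ g) (g1 : g ≤ 1) (hq : 0 ≤ q)
    (h0 : 0 ≤ h) (h1 : h ≤ 1) (hα : 0 < α) (hb : b₁ ^ 2 + b₂ ^ 2 ≤ g * q) (hy : gy - c * g ≤ e * q)
    (he : 0 ≤ e) (hD : e * (a₁ ^ 2 + a₂ ^ 2) ≤ D) (hC : h ≤ C * α) (hR : 0 ≤ R)
    (hX : (h' + h * (α + c)) * (a₁ ^ 2 + a₂ ^ 2) - h * L ≤ R) :
    -(h * g * L) + 2 * (a₁ * (h * b₁) + a₂ * (h * b₂)) + (h' * g + h * gy) * (a₁ ^ 2 + a₂ ^ 2)
      ≤ (C + D) * q + R := by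
  have hG : 0 ≤ a₁ ^ 2 + a₂ ^ 2 := by positivity
  have e1 : 2 * (a₁ * b₁ + a₂ * b₂) ≤ α * g * (a₁ ^ 2 + a₂ ^ 2) + α⁻¹ * q := by
    refine (abs_le_of_sq_le_sq' ?_ (by positivity)).2
    have h8 : α * g * (a₁ ^ 2 + a₂ ^ 2) * (α⁻¹ * q) = (a₁ ^ 2 + a₂ ^ 2) * (g * q) := by field_simp
    linarith [mul_le_mul_of_nonneg_left hb hG, sq_nonneg (a₁ * b₂ - a₂ * b₁),
      sq_nonneg (α * g * (a₁ ^ 2 + a₂ ^ 2) - α⁻¹ * q)]
  have e2 : h * α⁻¹ ≤ C := (mul_inv_le_iff₀ hα).2 hC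
  have e3 := (mul_le_of_le_one_left (mul_nonneg he hG) h1).trans hD
  linarith [mul_le_mul_of_nonneg_left e1 h0, mul_le_mul_of_nonneg_right e2 hq,
    mul_le_mul_of_nonneg_right e3 hq, mul_le_mul_of_nonneg_left hX g0, mul_le_of_le_one_left hR g1,
    mul_le_mul_of_nonneg_left hy (mul_nonneg h0 hG)]

lemma sep_alg {h ε c r x x₀ E m M : ℝ} (h0 : 0 ≤ h) (h1 : h ≤ 21 * x) (ε0 : 0 < ε) (c0 : 0 ≤ c)
    (c1 : c ≤ 1) (hr : 0 < r) (hE : 0 ≤ E) (hM : 0 ≤ M) (hx : 0 ≤ x₀)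
    (f1 : x * r⁻¹ * (1 - c - ε / 2) ≤ E) (hm : m = 0 ∨ m ≤ M * x₀ ∧ x₀ * r⁻¹ * (1 - c) ≤ E) :
    h * ((1 - ε / 2) * ((1 - c ^ 2) / r) - 2 * c * (1 - c) / r) + m * ((1 - c ^ 2) / r)
      ≤ (21 + 2 * M) * E := by
  have hi : 0 < r⁻¹ := by positivity
  have f4 : (1 - ε / 2) * (1 - c ^ 2) - 2 * c * (1 - c) ≤ max (1 - c - ε / 2) 0 := by
    nlinarith [mul_nonneg c0 (le_max_right (1 - c - ε / 2) 0),
      mul_le_mul_of_nonneg_left (le_max_left (1 - c - ε / 2) 0) (sub_nonneg.2 c1),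
      mul_nonneg (mul_nonneg c0 (sub_nonneg.2 c1)) ε0.le]
  have f5 : x * r⁻¹ * max (1 - c - ε / 2) 0 ≤ E := by
    rw [mul_max_of_nonneg _ _ (mul_nonneg (by linarith) hi.le), mul_zero]
    exact max_le f1 hE
  have f6 : m * ((1 - c ^ 2) / r) ≤ 2 * M * E := by
    rcases hm with rfl | ⟨f6, f7⟩
    · rw [zero_mul]
      positivity
    · have f8 : (1 - c ^ 2) / r ≤ r⁻¹ * (2 * (1 - c)) := by
        rw [div_eq_inv_mul]
        exact mul_le_mul_of_nonneg_left (by nlinarith [sq_nonneg (1 - c)]) hi.le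
      refine (mul_le_mul f6 f8 (div_nonneg (by nlinarith) hr.le) (by positivity)).trans ?_
      linarith [mul_le_mul_of_nonneg_left f7 hM]
  have f7 := mul_le_mul_of_nonneg_left (mul_le_mul_of_nonneg_left f4 hi.le) h0
  have f8 := mul_le_mul_of_nonneg_right h1 (mul_nonneg hi.le (le_max_right (1 - c - ε / 2) 0))
  simp only [div_eq_mul_inv _ r] at f6 ⊢
  linarith

lemma int_small {μ : Measure ST} {ψ f : ST → ℝ} {M e : ℝ} (hψ : Continuous ψ)
    (h0 : ∀ p, 0 ≤ ψ p ∧ ψ p ≤ M) (hf : Measurable f) (f0 : ∀ p, 0 ≤ f p) (he : 0 ≤ e)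
    (h : ∫⁻ p in tsupport ψ, ENNReal.ofReal (f p) ∂μ ≤ ENNReal.ofReal e) :
    ∫ p, ψ p * f p ∂μ ≤ M * e := by
  have hM : 0 ≤ M := (h0 0).1.trans (h0 0).2
  rw [integral_eq_lintegral_of_nonneg_ae (ae_of_all _ fun p => mul_nonneg (h0 p).1 (f0 p))
    (hψ.measurable.mul hf).aestronglyMeasurable]
  refine ENNReal.toReal_le_of_le_ofReal (by positivity) ?_
  rw [ENNReal.ofReal_mul hM]
  refine le_trans ?_ (mul_le_mul_right h _)
  rw [← lintegral_const_mul' _ _ ENNReal.ofReal_ne_top,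
    ← lintegral_indicator (isClosed_tsupport ψ).measurableSet]
  refine lintegral_mono fun p => ?_
  by_cases hp : p ∈ tsupport ψ
  · rw [indicator_of_mem hp, ← ENNReal.ofReal_mul hM]
    exact ENNReal.ofReal_le_ofReal (mul_le_mul_of_nonneg_right (h0 p).2 (f0 p))
  · simp [image_eq_zero_of_notMem_tsupport hp]

/-- [CORE] -/
theorem core (hC : Calc) (hD : CylDensStmt) (hK : CalcW) (hM : MonoW) (hQ : QSW) (hL : CellW)
    (hV : ViscW) (hE : ErrW) (hT : TDW) : CoreW := by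
  intro A hA
  obtain ⟨c₁, hc0, hc1, H⟩ := hQ A hA
  obtain ⟨σ₀, hσ₀, H⟩ := H (c₁ / 10) (by positivity) le_rfl
  set σ := min σ₀ (1 / 10 ^ 5 / A ^ 2) with hσdef
  have hσ : 0 < σ := lt_min hσ₀ (by positivity)
  have hσA : σ * A ^ 2 ≤ 1 / 10 ^ 5 := (le_div_iff₀ (by positivity)).1 (min_le_right _ _)
  have hσ1 : σ ≤ 1 := by nlinarith [mul_le_mul_of_nonneg_left (show 1 ≤ A ^ 2 by nlinarith) hσ.le]
  obtain ⟨δ, hδ, κ, hκ, H⟩ := H σ hσ (min_le_left _ _)
  clear_value σ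
  set D := 204800 * A ^ 2 * Real.exp (2 * (20 * A - 13 + 3)) with hDdef
  have hD1 : 1 ≤ D := by
    have := Real.one_le_exp (show 0 ≤ 2 * (20 * A - 13 + 3) by linarith)
    nlinarith [mul_le_mul (show 1 ≤ A ^ 2 by nlinarith) this zero_le_one (sq_nonneg A)]
  have hθ : 0 < c₁ / 10 := by positivity
  have hθ1 : c₁ / 10 ≤ 1 / 10 := by linarith
  refine ⟨c₁ / 10, σ, δ, c₁ / 2, 42 + 2 / c₁ + D, hθ, hθ1, hσ, hσ1, hδ, by positivity, by linarith,
    by positivity, fun w I Z C' hw => ⟨isOpen_Om' hC hw.toIsW0 hσ,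
      fun K hK hI => lower' hD hw.toIsW0 hσ hσ1 hθ hθ1 hK hI, fun ψ hψ hψc hψI hψ0 η hη => ?_⟩⟩
  have hw0 := hw.toIsW0
  replace H := H w I Z hw.toIsW
  have hqs : QS w I A c₁ (c₁ / 10) σ δ := fun t x y h => ⟨fun h1 h2 => ⟨fun r a b =>
    (((H t x y h).1 h1 h2).1 r a b).imp fun _ hz => ⟨hz.1, hz.2.1, hz.2.2.1⟩,
    ((H t x y h).1 h1 h2).2⟩, (H t x y h).2⟩
  have hav : AV w I A c₁ (c₁ / 10) σ δ κ := fun t x y h h1 h2 => ((H t x y h).1 h1 h2).1
  obtain ⟨M, hM0, hcut⟩ := exists_cut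
  obtain ⟨N, hN⟩ := hψ.continuous.bounded_above_of_compact_support hψc
  have hN' : ∀ p : ST, 0 ≤ ψ p.1 p.2 ∧ ψ p.1 p.2 ≤ N := fun p =>
    ⟨hψ0 _ _, (le_abs_self _).trans (hN p)⟩
  have hN0 : 0 ≤ N := (hN' 0).1.trans (hN' 0).2
  obtain ⟨y₂, hE⟩ := hE w I Z A C' hw.toIsG0 c₁ _ hc0 hc1 hθ le_rfl _ hψc.isCompact hψI
    (η / 2 / ((21 + 2 * M) * N + 1)) (by positivity)
  obtain ⟨C₁, y₄, hT⟩ := hT w I Z A hw0 σ (20 * A - 13 + 3) hσ hσ1 _ hψc.isCompact hψI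
  refine ⟨y₂, fun ys hys => ?_⟩
  obtain ⟨y₃, hE⟩ := hE ys hys
  obtain ⟨y₀, a1, a2, a3, a4⟩ : ∃ y₀, y₀ ≤ y₃ ∧ y₀ ≤ y₄ ∧ y₀ + 1 ≤ ys ∧
      y₀ - ys ≤ Real.log (η / 2 / (M * D * (N * |C₁|) + 1)) :=
    ⟨min (min y₃ y₄) (min (ys - 1) (Real.log (η / 2 / (M * D * (N * |C₁|) + 1)) + ys)), by simp,
      by simp, le_sub_iff_add_le.1 (by simp), sub_le_iff_le_add.2 (by simp)⟩
  obtain ⟨E, E1, ⟨BE, Eb⟩, Ei, E4⟩ := hE y₀ a1
  obtain ⟨S, S1, S2, S3⟩ := hT y₀ a2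
  obtain ⟨h, h1, h2, h3, h4, h5⟩ := hcut y₀ ys a3
  refine ⟨y₀, by linarith, h, h1.continuous, h2, h3, fun y hy => (h4 y hy).1, ?_⟩
  intro J γ q y₁ hJ hJI hψJ hγ hγ0 hγ1 hqm ⟨Bq, hq⟩ hyp
  obtain ⟨C₀, k, hk, hcr⟩ := crude hC hw0 hqs hav hσ hσ1 hc0 hκ y₀
  set C₃ := M * Real.exp (y₀ - ys) * (D * Real.exp (-2 * y₀)) with hC₃
  have hC3 : 0 ≤ C₃ := by positivity
  have i0 : ∀ p, 0 ≤ S.indicator (1 : ST → ℝ) p ∧ S.indicator (1 : ST → ℝ) p ≤ 1 := fun p =>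
    ⟨indicator_nonneg (fun _ _ => zero_le_one) p, indicator_le_self' (fun _ _ => zero_le_one) p⟩
  have im : Measurable (S.indicator (1 : ST → ℝ)) := measurable_one.indicator S1
  have hcl : ∀ p ∈ trk w fun p => ψ p.1 p.2, ∀ y, (p.1, p.2, y) ∈ closure
      {a : ℝ × E3 × ℝ | a.1 ∈ J ∧ h a.2.2 * γ a.1 a.2.1 a.2.2 ≠ 0} →
      y₀ ≤ y ∧ Quiet w I δ p.1 p.2 y := fun p hp y hy => by
    have b1 : y₀ ≤ y := closure_minimal (t := {a : ℝ × E3 × ℝ | y₀ ≤ a.2.2})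
      (fun a ha => le_of_not_ge fun h' => left_ne_zero_of_mul ha.2 (h3 _ h'))
      (isClosed_le continuous_const (by fun_prop)) hy
    exact ⟨b1, (hyp p hp.1 hp.2 y b1).1 (closure_mono
      (fun a ha => And.intro ha.1 (right_ne_zero_of_mul ha.2)) hy)⟩
  have main := asm hK hV hw0 (O := Om w I A σ (c₁ / 10)) (fun _ _ _ _ => Om_up)
    (isOpen_Om' hC hw0 hσ) (γ := fun t x y => h y * γ t x y) (y₀ := y₀) (y₁ := y₁)
    (Q := fun p => (42 + 2 / c₁ + D) * q p + ((21 + 2 * M) * E p + C₃ * S.indicator 1 p)) hJ hJI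
    ((h1.comp_contDiffOn (by fun_prop)).mul hγ)
    (fun t ht x y => mul_nonneg (h2 y).1 (hγ0 t ht x y).1)
    (fun t ht x y hy => by rw [hγ1 t ht x y hy, mul_zero])
    (fun t ht x y hy => by rw [h3 y hy, zero_mul]) hψ hψc hψJ hψ0
    ((hqm.const_mul _).add ((E1.const_mul _).add (im.const_mul _)))
    (B := (42 + 2 / c₁ + D) * Bq + ((21 + 2 * M) * BE + C₃ * 1)) (fun p => ⟨by
      have := (hq p).1; have := (Eb p).1; have := (i0 p).1; positivity, by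
      gcongr; exacts [(hq p).2, (Eb p).2, (i0 p).2]⟩)
    (fun p hp y b1 b2 y' => cl' hC hL hw0 hqs hσ hσ1 hθ hθ1 le_rfl hp.2 (hcl p hp y b1).2 b2)
    (fun p hp y b1 b2 e₁ e₂ he => ?_) hk fun p hp y b1 b2 =>
      have b3 := hcl p hp y (subset_closure (And.intro (hψJ hp.1).1 b1))
      hcr p hp.2 y b3.1 b3.2 b2
  · simp only [heat_mul] at main
    refine ⟨main.1, main.2.1, ?_⟩
    have i1 := int_psi' hK hw0 hψ.continuous hψc hψI hqm fun p =>
      (abs_of_nonneg (hq p).1).trans_le (hq p).2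
    have i2 := int_psi' hK hw0 hψ.continuous hψc hψI E1 fun p =>
      (abs_of_nonneg (Eb p).1).trans_le (Eb p).2
    have i3 := int_psi' hK hw0 hψ.continuous hψc hψI im fun p =>
      (abs_of_nonneg (i0 p).1).trans_le (i0 p).2
    have j2 := int_small hψ.continuous hN' E1 (fun p => (Eb p).1) (by positivity) Ei
    have j3 := int_small (μ := stm w I) (e := |C₁| * Real.exp (2 * y₀)) hψ.continuous hN' im
      (fun p => (i0 p).1) (by positivity) ((setLIntegral_le_lintegral _ _).trans (le_trans (by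
        refine le_of_eq ((lintegral_congr fun p => ?_).trans (lintegral_indicator_one S1))
        by_cases hp : p ∈ S <;> simp [hp]) (S2.trans (ENNReal.ofReal_le_ofReal
          (mul_le_mul_of_nonneg_right (le_abs_self _) (Real.exp_pos _).le)))))
    have i4 := (main.1.add (main.2.1.add (i1.const_mul (42 + 2 / c₁ + D)))).congr
      (g := fun p => GG w I A σ (c₁ / 10) (fun t x y => h y * γ t x y) p.1 p.2 * adj w ψ p.1 p.2
        + ψ p.1 p.2 * ((∫ y in Om w I A σ (c₁ / 10) p.1 p.2,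
          h y * heat w (fun t x => γ t x y) p.1 p.2) + (42 + 2 / c₁ + D) * q p))
      (ae_of_all _ fun p => by simp only [Pi.add_apply, GG]; ring)
    have i5 : Integrable (fun p : ST => (21 + 2 * M) * (ψ p.1 p.2 * E p)
        + C₃ * (ψ p.1 p.2 * S.indicator 1 p)) (stm w I) := (i2.const_mul _).add (i3.const_mul _)
    have k1 := main.2.2.trans_eq ((integral_congr_ae (ae_of_all _ fun p => by
      simp only [GG]; ring)).trans (integral_add i4 i5))
    rw [integral_add (i2.const_mul _) (i3.const_mul _), integral_const_mul, integral_const_mul] at k1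
    have k2 : (21 + 2 * M) * (N * (η / 2 / ((21 + 2 * M) * N + 1))) ≤ η / 2 := by
      rw [← mul_assoc, ← mul_div_assoc, div_le_iff₀ (by positivity)]
      nlinarith
    have k3 : C₃ * (N * (|C₁| * Real.exp (2 * y₀))) ≤ η / 2 := by
      have k4 := (Real.le_log_iff_exp_le (by positivity)).1 a4
      rw [le_div_iff₀ (by positivity)] at k4
      have k5 : C₃ * (N * (|C₁| * Real.exp (2 * y₀)))
          = Real.exp (y₀ - ys) * (M * D * (N * |C₁|)) := by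
        rw [hC₃, neg_mul, Real.exp_neg]
        field_simp
      linarith [Real.exp_pos (y₀ - ys)]
    linarith [mul_le_mul_of_nonneg_left j2 (by positivity : 0 ≤ 21 + 2 * M),
      mul_le_mul_of_nonneg_left j3 hC3]
  obtain ⟨b3, b4⟩ := hcl p hp y b1
  obtain ⟨P, hP, b5⟩ := exists_bar' hC hM hL hD hw0 hqs hσ hσA hθ le_rfl hc1 hp.2 b4 b2
  refine ⟨P, hP.cd, hP.eq, hP.above, ?_⟩
  obtain ⟨-, c1, c2, c3⟩ := hyp p hp.1 hp.2 y b3
  have hpJ := (hψJ hp.1).1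
  have c4 : DifferentiableAt ℝ (γ p.1 p.2) y := diff1 (ContDiffAt.comp y (g := gw γ)
    (f := fun s : ℝ => ((p, s) : ST × ℝ))
    (cd_g (hJ.preimage continuous_fst) (cd_gw hγ) (a := (p, y)) hpJ) (by fun_prop))
  rw [he.normSq] at c1
  replace c1 := (le_add_of_nonneg_right (sq_nonneg _)).trans c1
  have hE0 := (Eb p).1
  have hS0 := (i0 p).1
  have e2 : Real.exp (2 * y) = Real.exp y ^ 2 := by rw [← Real.exp_nat_mul]; norm_num
  have e3 : Real.exp (-2 * y) = (Real.exp y ^ 2)⁻¹ := by rw [neg_mul, Real.exp_neg, e2]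
  have hr := Real.exp_pos y
  have hG : 0 ≤ Gf e₁ e₂ P p := by rw [Gf]; positivity
  have hGD : Real.exp (2 * y) * Gf e₁ e₂ P p ≤ D := by
    rcases b5 with ⟨z, c, -, -, -, -, -, d1⟩ | ⟨-, d1⟩
    · rw [(d1 _ _ he).1, e2, mul_div_cancel₀ _ (by positivity)]
      linarith [sq_nonneg c]
    · exact (d1 _ _ he).2
  simp only [grad_mul, Pi.smul_apply, real_inner_smul_right]
  rw [deriv_fun_mul (h1.differentiable (by norm_num) y) c4]
  rcases le_total ys y with hy | hy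
  · refine alg (α := c₁ / 2) (hγ0 _ hpJ _ _).1 (hγ0 _ hpJ _ _).2 (hq p).1 (h2 y).1 (h2 y).2.1
      (by positivity) c1 c2 (Real.exp_pos _).le hGD ((h2 y).2.1.trans ?_) (by positivity)
      (le_trans ?_ (by positivity : (0 : ℝ) ≤ _))
    · have : 2 / c₁ * (c₁ / 2) = 1 := by field_simp
      linarith
    rw [(h4 y hy).1, (h4 y hy).2, zero_add, one_mul, one_mul, add_halves, sub_nonpos]
    change c₁ * Gf e₁ e₂ P p ≤ _
    rcases b5 with ⟨z, c, -, -, d2, d3, -, d1⟩ | ⟨-, d1⟩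
    · rw [(d1 _ _ he).1, (d1 _ _ he).2, ← mul_div_assoc]
      refine div_le_div_of_nonneg_right ?_ (sq_nonneg _)
      have : 0 ≤ (c - c₁) * ((1 - c) * (1 + c)) :=
        mul_nonneg (sub_nonneg.2 d2) (mul_nonneg (sub_nonneg.2 d3) (by linarith))
      linarith [mul_nonneg (hc0.le.trans d2) (sq_nonneg (1 - c))]
    · exact (mul_le_of_le_one_left hG hc1).trans (d1 _ _ he).1
  obtain ⟨m, m0, m1, m2, m3⟩ := h5 y hy
  set ε := Real.exp ((y - ys) / 2) with hε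
  have ε0 : 0 < ε := Real.exp_pos _
  have ε1 : ε ≤ 1 := Real.exp_le_one_iff.2 (by linarith)
  have hh := h2 y
  refine alg (α := ε / 2) (c := 0) (hγ0 _ hpJ _ _).1 (hγ0 _ hpJ _ _).2 (hq p).1 hh.1 hh.2.1
    (by positivity) c1 (by simpa using c3 hy) (Real.exp_pos _).le hGD (hh.2.2.trans ?_)
    (by positivity) ?_
  · have : Real.exp (y - ys) ≤ ε := Real.exp_le_exp.2 (by linarith)
    have : 0 ≤ 2 / c₁ * (ε / 2) := by positivity
    linarith
  change _ * Gf e₁ e₂ P p - _ ≤ _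
  have m4 : (deriv h y + h y * (ε / 2 + 0)) * Gf e₁ e₂ P p - h y * Lf e₁ e₂ P p
      ≤ h y * ((1 - ε / 2) * Gf e₁ e₂ P p - Lf e₁ e₂ P p) + m * Gf e₁ e₂ P p := by
    linarith [mul_le_mul_of_nonneg_right m3 hG]
  refine m4.trans ?_
  rcases b5 with ⟨z, c, d0, d4, d2, d3, d5, d1⟩ | ⟨⟨s, d2, d3, d4⟩, d1⟩
  · obtain ⟨f1, f2⟩ := E4 p hp.1 z y d0 d4 b3 hy
    rw [d5, e3] at f1 f2
    rw [(d1 _ _ he).1, (d1 _ _ he).2]
    refine (sep_alg hh.1 hh.2.2 ε0 (hc0.le.trans d2) d3 (by positivity) hE0 hM0 (Real.exp_pos _).le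
      f1 ((lt_or_ge (y₀ + 1) y).imp m2 fun f5 => ⟨m1, f2 f5⟩)).trans
      (le_add_of_nonneg_right (mul_nonneg hC3 hS0))
  · have f3 : h y * ((1 - ε / 2) * Gf e₁ e₂ P p - Lf e₁ e₂ P p) ≤ 0 :=
      mul_nonpos_of_nonneg_of_nonpos hh.1 (by linarith [(d1 _ _ he).1, mul_nonneg ε0.le hG])
    have f4 : m * Gf e₁ e₂ P p ≤ C₃ * S.indicator 1 p := by
      rcases lt_or_ge (y₀ + 1) y with f5 | f5
      · rw [m2 f5, zero_mul]
        positivity
      · rw [indicator_of_mem (S3 p hp.1 hp.2 s ⟨by linarith [d2.1], d2.2.trans f5⟩ d3 d4),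
          Pi.one_apply, mul_one]
        refine mul_le_mul m1 ?_ hG (by positivity)
        rw [neg_mul, Real.exp_neg, ← div_eq_mul_inv, le_div_iff₀' (Real.exp_pos _)]
        exact (mul_le_mul_of_nonneg_right (Real.exp_le_exp.2 (by linarith)) hG).trans hGD
    have : 0 ≤ (21 + 2 * M) * E p := by positivity
    linarith

end Vale.Agent.P218WO
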