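import Vale.Agent.P218WO.Om

/-! Uniform barriers, backwards in time, for the set of levels at quiet points. -/

open MeasureTheory Set Filter Topology Metric
open scoped RealInnerProductSpace ContDiff

namespace Vale.Agent.P218WO

open Vale.Agent.P218UA Vale.Agent.P218WA Vale.Agent.P218UO Vale.Agent.P218UM

variable {w : ℝ → E3 → ℝ} {I Z : Set ℝ} {A σ θ δ κ c₁ : ℝ}

/-- a second sheet which is present at a quiet point was present shortly before -/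
def AV (w : ℝ → E3 → ℝ) (I : Set ℝ) (A c₁ θ σ δ κ : ℝ) : Prop :=
  ∀ (t : ℝ) (x : E3) (y : ℝ), Quiet w I δ t x y → w t x = 0 →
    tbar w σ t x (y - (20 * A - 13)) ≤ 27 / 20 → ∀ r, r ≤ Real.exp (y + 1 / 2) →
    ¬Reg (w t) θ x r → ∃ z ∈ ball x r, w t z = 0 ∧
      c₁ * Real.exp (y + 1 / 2) ≤ |⟪z - x, gradient (w t) x⟫| ∧
      ∀ (t' : ℝ) (x' : E3) (r' : ℝ), t - κ * Real.exp (2 * y) ≤ t' → t' ≤ t →
        ‖x' - x‖ ≤ κ * Real.exp y → w t' x' = 0 → 0 < r' →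
        ‖x' - z‖ ^ 2 + 4 * (t - t') < r' ^ 2 → ¬Reg (w t') θ x' r'

/-- the levels above a paraboloid with the vertex `(p, y)` belong to `O` -/
def Par (w : ℝ → E3 → ℝ) (O : ℝ → E3 → Set ℝ) (C k : ℝ) (p : ST) (y : ℝ) : Prop :=
  ∃ L : E3 →L[ℝ] ℝ, ‖L‖ ≤ C ∧ ∀ q : ST, w q.1 q.2 = 0 → q.1 ≤ p.1 → p.1 - q.1 ≤ k →
    ‖q.2 - p.2‖ ≤ k → ∀ y', y + L (q.2 - p.2) + C * ‖q.2 - p.2‖ ^ 2 + C * (p.1 - q.1) < y' →
      y' ∈ O q.1 q.2

lemma crude_td (hC : Calc) (hw : IsW0 w I Z A) (hσ : 0 < σ) (hσ1 : σ ≤ 1) {p : ST}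
    {y s r C k : ℝ} (hQ : Quiet w I δ p.1 p.2 y) (hs : s ≤ y) (hr : 0 < r) (h1 : r ≤ Real.exp s)
    (h2 : 320 * A / r ≤ C) (h3 : 40 * A / (σ * r ^ 2) ≤ C) (h4 : k ≤ 1) (h5 : C * k ≤ 1 / 10)
    (h6 : k ≤ r ^ 2) (h7 : 27 / 20 ≤ tb w σ (p, s)) (h8 : s + 10 * (2 * A - tb w σ (p, s)) ≤ y) :
    Par w (Om w I A σ θ) C k p y := by
  have hA := hw.one_le
  have ha := quiet_win hσ1 hQ (show s ≤ y + 1 by linarith)
  obtain ⟨M, m1, m2⟩ := tb_space hC hw hσ ha p.2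
  have e : Real.exp (2 * s) = Real.exp s ^ 2 := by rw [← Real.exp_nat_mul]; norm_num
  have hrs : r ^ 2 ≤ Real.exp s ^ 2 := pow_le_pow_left₀ hr.le h1 2
  have m3 : 10 * ‖M‖ ≤ C := by
    have : 32 * A / Real.exp s ≤ 32 * A / r := div_le_div_of_nonneg_left (by positivity) hr h1
    have : 320 * A / r = 10 * (32 * A / r) := by ring
    linarith
  have hC0 : 0 ≤ C := le_trans (by positivity) m3
  refine ⟨(-10 : ℝ) • M, by rwa [norm_smul, norm_neg, Real.norm_ofNat], fun q _ e1 e2 e3 y' e4 => ?_⟩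
  have hb : Icc (q.1 - σ * Real.exp (2 * s)) q.1 ⊆ I := by
    obtain ⟨z, ρ, -, a1, -, a2, -⟩ := hQ
    refine (Icc_subset_Icc ?_ e1).trans a2
    have a3 : 2 * Real.exp s ≤ ρ := by
      rw [Real.exp_add] at a1
      nlinarith [Real.add_one_le_exp 1, Real.exp_le_exp.2 hs, Real.exp_pos y]
    rw [e]
    nlinarith [Real.exp_pos s, mul_le_mul_of_nonneg_right hσ1 (sq_nonneg (Real.exp s))]
  have m4 := m2 (q.2 - p.2)
  have m5 := tb_time' hC hw hσ ha hb q.2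
  rw [add_sub_cancel] at m4
  rw [abs_sub_comm, abs_of_nonneg (sub_nonneg.2 e1), e] at m5
  have m6 : 10 * (4 * A / Real.exp s ^ 2) ≤ C := by
    refine le_trans ?_ h3
    rw [← mul_div_assoc, show 10 * (4 * A) = 40 * A by ring]
    exact div_le_div_of_nonneg_left (by positivity) (by positivity) (by nlinarith [sq_nonneg r])
  have m7 : 10 * (3 * A / (σ * Real.exp s ^ 2)) ≤ C := by
    refine le_trans ?_ h3
    rw [← mul_div_assoc]
    exact div_le_div₀ (by positivity) (by linarith) (by positivity)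
      (mul_le_mul_of_nonneg_left hrs hσ.le)
  have n0 := norm_nonneg (q.2 - p.2)
  have n1 := mul_le_mul_of_nonneg_right m6 (sq_nonneg ‖q.2 - p.2‖)
  have n2 := mul_le_mul_of_nonneg_right m7 (sub_nonneg.2 e1)
  have n3 := (abs_le.1 (M.le_opNorm (q.2 - p.2))).1
  have n4 := mul_le_mul_of_nonneg_right m3 n0
  have n5 := mul_le_mul_of_nonneg_left e3 hC0
  have n6 := mul_le_mul_of_nonneg_left e2 hC0
  have n7 := mul_le_mul_of_nonneg_left (show ‖q.2 - p.2‖ ^ 2 ≤ k by nlinarith) hC0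
  change tb w σ (p, s) + _ - _ ≤ _ at m4
  change _ ≤ tbar w σ q.1 q.2 s at m5
  rw [smul_apply, smul_eq_mul] at e4
  exact Or.inr ⟨s, hb, by linarith, by linarith⟩

theorem crude (hC : Calc) (hw : IsW0 w I Z A) (hq : QS w I A c₁ θ σ δ) (hv : AV w I A c₁ θ σ δ κ)
    (hσ : 0 < σ) (hσ1 : σ ≤ 1) (hc : 0 < c₁) (hκ : 0 < κ) (y₀ : ℝ) :
    ∃ C k : ℝ, 0 < k ∧ ∀ p : ST, w p.1 p.2 = 0 → ∀ y, y₀ ≤ y → Quiet w I δ p.1 p.2 y →
      y ∈ Om w I A σ θ p.1 p.2 → Par w (Om w I A σ θ) C k p y := by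
  have hA := hw.one_le
  set r := Real.exp (y₀ - (20 * A - 13) - 3) with hr
  set r₁ := c₁ * Real.exp y₀ with hr₁
  have hr0 : 0 < r := Real.exp_pos _
  have hr1 : 0 < r₁ := by positivity
  obtain ⟨C, c0, c1, c2, c3, c4⟩ : ∃ C, 0 < C ∧ 320 * A / r ≤ C ∧ 40 * A / (σ * r ^ 2) ≤ C ∧
      r₁⁻¹ ≤ C ∧ 2 / r₁ ^ 2 ≤ C :=
    ⟨max (max (320 * A / r) (40 * A / (σ * r ^ 2))) (max r₁⁻¹ (2 / r₁ ^ 2)), by positivity,
      by simp, by simp, by simp, by simp⟩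
  obtain ⟨k, k0, k1, k2, k3, k4, k5⟩ : ∃ k, 0 < k ∧ k ≤ 1 ∧ k ≤ 1 / 10 / C ∧ k ≤ r ^ 2 ∧
      k ≤ κ * Real.exp (2 * y₀) ∧ k ≤ κ * Real.exp y₀ :=
    ⟨min (min 1 (1 / 10 / C)) (min (r ^ 2) (min (κ * Real.exp (2 * y₀)) (κ * Real.exp y₀))),
      by positivity, by simp, by simp, by simp, by simp, by simp⟩
  rw [le_div_iff₀' c0] at k2
  refine ⟨C, k, k0, fun p hp y hy hQ hO => ?_⟩
  have td : ∀ s, y - (20 * A - 13) - 3 ≤ s → s ≤ y → 27 / 20 ≤ tb w σ (p, s) →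
      s + 10 * (2 * A - tb w σ (p, s)) ≤ y → Par w (Om w I A σ θ) C k p y := fun s a1 a2 =>
    crude_td hC hw hσ hσ1 hQ a2 hr0 (Real.exp_le_exp.2 (by linarith)) c1 c2 k1 k2 k3
  rcases le_total (27 / 20) (tb w σ (p, y - (20 * A - 13))) with h | h
  · exact td _ (by linarith) (by linarith) h (by linarith)
  rcases hO with hO | ⟨s, h1, h2, h3⟩
  swap
  · have h4 := tb_le_A hw hσ h1 p.2
    have h5 : y - (20 * A - 13) - 3 ≤ s := by
      by_contra h'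
      linarith [((hq _ _ _ hQ).1 hp h).2 s (not_le.1 h').le]
    rcases le_total (3 / 2) (tbar w σ p.1 p.2 s) with h6 | h6
    · exact td s h5 (by linarith) (le_trans (by norm_num) h6) h3.le
    · have h7 : 17 / 10 ≤ tb w σ (p, s + 2) :=
        (hq _ _ _ hQ).2 s (by linarith) (by linarith) (by linarith)
      exact td (s + 2) (by linarith) (by linarith) (by linarith) (by linarith)
  obtain ⟨z, h1, -, h2, h3⟩ := hv _ _ _ hQ hp h _ (Real.exp_le_exp.2 (by linarith)) hO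
  rw [mem_ball_iff_norm] at h1
  have h4 : r₁ ≤ ‖z - p.2‖ := by
    have h5 := abs_real_inner_le_norm (z - p.2) (gradient (w p.1) p.2)
    rw [(hw.eik _ (quiet_mem hQ) _ hp).self_of_nhds, mul_one] at h5
    exact le_trans (mul_le_mul_of_nonneg_left (Real.exp_le_exp.2 (by linarith)) hc.le) (h2.trans h5)
  set d := ‖z - p.2‖ with hd
  have hd0 : 0 < d := hr1.trans_le h4
  refine ⟨(-(d ^ 2)⁻¹) • innerSL ℝ (z - p.2), ?_, fun q e0 e1 e2 e3 y' e4 => Or.inl ?_⟩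
  · rw [norm_smul, innerSL_apply_norm, ← hd, norm_neg, Real.norm_eq_abs, abs_of_pos (by positivity)]
    exact le_trans (le_of_eq (by field_simp)) ((inv_anti₀ hr1 h4).trans c3)
  refine h3 q.1 q.2 _ ?_ e1 (e3.trans (k5.trans ?_)) e0 (Real.exp_pos y') ?_
  · linarith [mul_le_mul_of_nonneg_left (Real.exp_le_exp.2 (show 2 * y₀ ≤ 2 * y by linarith)) hκ.le]
  · exact mul_le_mul_of_nonneg_left (Real.exp_le_exp.2 hy) hκ.le
  rw [smul_apply, smul_eq_mul, innerSL_apply_apply] at e4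
  have h5 : ‖q.2 - z‖ ^ 2 = d ^ 2 - 2 * ⟪z - p.2, q.2 - p.2⟫ + ‖q.2 - p.2‖ ^ 2 := by
    rw [← norm_sub_sq_real, norm_sub_rev, sub_sub_sub_cancel_right]
  have h6 : 2 * (d ^ 2)⁻¹ ≤ C :=
    le_trans (div_le_div_of_nonneg_left zero_le_two (by positivity)
      (pow_le_pow_left₀ hr1.le h4 2)) c4
  have h7 := mul_le_mul_of_nonneg_right h6 (sq_nonneg ‖q.2 - p.2‖)
  have h8 := mul_le_mul_of_nonneg_right h6 (sub_nonneg.2 e1)
  have h9 : 0 ≤ (d ^ 2)⁻¹ * ‖q.2 - p.2‖ ^ 2 := by positivity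
  set u := (d ^ 2)⁻¹ * (‖q.2 - p.2‖ ^ 2 - 2 * ⟪z - p.2, q.2 - p.2⟫ + 4 * (p.1 - q.1)) with hu
  calc ‖q.2 - z‖ ^ 2 + 4 * (p.1 - q.1) = d ^ 2 * (u + 1) := by rw [h5, hu]; field_simp; ring
    _ ≤ Real.exp y ^ 2 * Real.exp u :=
      (mul_le_mul_of_nonneg_left (Real.add_one_le_exp u) (sq_nonneg d)).trans
        (mul_le_mul_of_nonneg_right (pow_le_pow_left₀ hd0.le h1.le 2) (Real.exp_pos u).le)
    _ < Real.exp y' ^ 2 := by
      rw [sq, sq, ← Real.exp_add, ← Real.exp_add, ← Real.exp_add, Real.exp_lt_exp]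
      linarith

end Vale.Agent.P218WO
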