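import Vale.Agent.P218WA.Props
import Vale.Agent.P218UO.Sep

/-! The averaged mass ratio of a flow with singular times: continuity and lower barriers. -/

open MeasureTheory Set Filter Topology Metric
open scoped RealInnerProductSpace ContDiff

namespace Vale.Agent.P218WO

open Vale.Agent.P218UA Vale.Agent.P218WA Vale.Agent.P218UO Vale.Agent.P218UM

variable {w : ℝ → E3 → ℝ} {I Z : Set ℝ} {A σ : ℝ}

lemma cd_mm' (hC : Calc) (hw : IsW0 w I Z A) {a : ST × ℝ} (ha : a.1.1 ∈ I \ Z) :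
    ContDiffAt ℝ 2 (mm w) a :=
  let ⟨_, _, h1, _, h3⟩ := hw.loc ha
  cd_mm hC h3.toIsFlow h1

lemma mm_abs (hw : IsW0 w I Z A) {a : ST × ℝ} (ha : a.1.1 ∈ I) : ‖mm w a‖ ≤ 4 / 3 * A := by
  rw [Real.norm_eq_abs, mm, abs_of_nonneg (mk_nonneg _ _ _)]
  exact mk_le (hw.ratio _ ha) (by linarith [hw.one_le]) _ (Real.exp_pos _)

lemma ii_of (hw : IsW0 w I Z A) {E : Type} [NormedAddCommGroup E] {f : ℝ → E}
    (hf : ∀ t ∈ I \ Z, ContinuousAt f t) {B : ℝ} (hB : ∀ t ∈ I \ Z, ‖f t‖ ≤ B) {a b : ℝ}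
    (ha : a ∈ I) (hb : b ∈ I) : IntervalIntegrable f volume a b := by
  have h0 : uIoc a b ⊆ I := uIoc_subset_uIcc.trans (hw.conn.uIcc_subset ha hb)
  have h1 : AEStronglyMeasurable f (volume.restrict (I \ Z)) :=
    ContinuousOn.aestronglyMeasurable (fun t ht => (hf t ht).continuousWithinAt)
      hw.isOpen_reg.measurableSet
  rw [Measure.restrict_congr_set (sdiff_null_ae_eq_self hw.null)] at h1
  have : IsFiniteMeasure (volume.restrict (uIoc a b)) := ⟨by simp [uIoc]⟩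
  refine intervalIntegrable_iff.2 (Integrable.of_bound (h1.mono_measure
    (Measure.restrict_mono h0 le_rfl)) B ?_)
  filter_upwards [ae_restrict_mem measurableSet_uIoc, ae_restrict_of_ae (ae_notMem hw.null)]
    with t h2 h3 using hB t ⟨h0 h2, h3⟩

lemma ii_m (hC : Calc) (hw : IsW0 w I Z A) (x : E3) (y : ℝ) {a b : ℝ} (ha : a ∈ I) (hb : b ∈ I) :
    IntervalIntegrable (fun s => mm w ((s, x), y)) volume a b :=
  ii_of hw (fun t ht => ContinuousAt.comp (g := mm w) (f := fun s : ℝ => (((s, x), y) : ST × ℝ))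
    (cd_mm' hC hw ht).continuousAt (by fun_prop)) (fun _ ht => mm_abs hw ht.1) ha hb

lemma tb_def (a : ST × ℝ) : tb w σ a = (∫ s in (a.1.1 - σ * Real.exp (2 * a.2))..a.1.1,
    mm w ((s, a.1.2), a.2)) / (σ * Real.exp (2 * a.2)) := rfl

lemma win_l (hσ : 0 < σ) {t y : ℝ} (h : Icc (t - σ * Real.exp (2 * y)) t ⊆ I) :
    t - σ * Real.exp (2 * y) ∈ I := h ⟨le_rfl, by linarith [mul_pos hσ (Real.exp_pos (2 * y))]⟩

lemma win_r (hσ : 0 < σ) {t y : ℝ} (h : Icc (t - σ * Real.exp (2 * y)) t ⊆ I) : t ∈ I :=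
  h ⟨by linarith [mul_pos hσ (Real.exp_pos (2 * y))], le_rfl⟩

lemma ev_win' (hw : IsW0 w I Z A) {X : Type} [TopologicalSpace X] {f g : X → ℝ} {a : X}
    (hf : ContinuousAt f a) (hg : ContinuousAt g a) (h1 : f a ∈ I) (h2 : g a ∈ I) :
    ∀ᶠ b in 𝓝 a, Icc (f b) (g b) ⊆ I := by
  filter_upwards [hf.eventually (hw.isOpen.mem_nhds h1), hg.eventually (hw.isOpen.mem_nhds h2)]
    with b h3 h4 using hw.conn.out h3 h4

lemma cont_tb (hC : Calc) (hw : IsW0 w I Z A) (hσ : 0 < σ) {a : ST × ℝ}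
    (ha : Icc (a.1.1 - σ * Real.exp (2 * a.2)) a.1.1 ⊆ I) : ContinuousAt (tb w σ) a := by
  rw [funext (tb_eq (w := w) hσ)]
  have h0 : ∀ᶠ b : ST × ℝ in 𝓝 a, Icc (b.1.1 - σ * Real.exp (2 * b.2)) b.1.1 ⊆ I :=
    ev_win' hw (by fun_prop) (by fun_prop) (win_l hσ ha) (win_r hσ ha)
  have h1 : ∀ {s : ℝ}, s ∈ uIoc (0 : ℝ) 1 → s ∈ Icc (0 : ℝ) 1 := fun hs =>
    Ioc_subset_Icc_self (uIoc_of_le (zero_le_one' ℝ) ▸ hs)
  refine intervalIntegral.continuousAt_of_dominated_interval (bound := fun _ => 4 / 3 * A)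
    (h0.mono fun b hb => ?_) (h0.mono fun b hb => ae_of_all _ fun s hs =>
      mm_abs hw (hb (win_mem hσ _ _ (h1 hs)))) intervalIntegrable_const ?_
  · have hc : σ * Real.exp (2 * b.2) ≠ 0 := by positivity
    have h2 := ((ii_m hC hw b.1.2 b.2 (win_r hσ hb) (win_l hσ hb)).comp_sub_left b.1.1).comp_mul_left
      (c := σ * Real.exp (2 * b.2))
    simp only [sub_self, zero_div, sub_sub_cancel, div_self hc] at h2
    exact (intervalIntegrable_iff.1 h2).aestronglyMeasurable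
  · have hc : σ * Real.exp (2 * a.2) ≠ 0 := by positivity
    have h2 : volume ((fun s => σ * Real.exp (2 * a.2) * s) ⁻¹' ((fun s => a.1.1 - s) ⁻¹' Z)) = 0 := by
      rw [Real.volume_preimage_mul_left hc,
        (Measure.measurePreserving_sub_left volume a.1.1).measure_preimage
          hw.closed.measurableSet.nullMeasurableSet, hw.null, mul_zero]
    filter_upwards [ae_notMem h2] with s h3 hs
    exact ContinuousAt.comp (g := mm w)
      (f := fun b : ST × ℝ => (((b.1.1 - σ * Real.exp (2 * b.2) * s, b.1.2), b.2) : ST × ℝ))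
      (cd_mm' hC hw (a := ((a.1.1 - σ * Real.exp (2 * a.2) * s, a.1.2), a.2))
        ⟨ha (win_mem hσ _ _ (h1 hs)), h3⟩).continuousAt (by fun_prop)

lemma cont_tb' (hC : Calc) (hw : IsW0 w I Z A) (hσ : 0 < σ) {p : ST} {y : ℝ}
    (ha : Icc (p.1 - σ * Real.exp (2 * y)) p.1 ⊆ I) :
    ContinuousAt (fun q : ST => tb w σ (q, y)) p :=
  ContinuousAt.comp (g := tb w σ) (cont_tb hC hw hσ (a := (p, y)) ha) (by fun_prop)

lemma tb_le_A (hw : IsW0 w I Z A) (hσ : 0 < σ) {t y : ℝ}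
    (ha : Icc (t - σ * Real.exp (2 * y)) t ⊆ I) (x : E3) : tbar w σ t x y ≤ 4 / 3 * A :=
  tbar_le hσ fun s hs => mk_le (hw.ratio s (ha hs)) (by linarith [hw.one_le]) x (Real.exp_pos y)

/-- a semiconvex function lies above its tangent parabola -/
lemma semi {f : E3 → ℝ} {f' : E3 →L[ℝ] ℝ} {x : E3} {K : ℝ} (hf : HasFDerivAt f f' x)
    (h : ∀ z u, 2 * f z - f (z + u) - f (z + -u) ≤ K * ‖u‖ ^ 2) (v : E3) :
    f x + f' v - K / 2 * ‖v‖ ^ 2 ≤ f (x + v) := by
  set φ : ℝ → ℝ := fun τ => f (x + τ • v) - f x + K / 2 * ‖v‖ ^ 2 * τ ^ 2 with hφ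
  have h1 : HasDerivAt φ (f' v) 0 := by
    have h2 : HasDerivAt (fun τ : ℝ => x + τ • v) v 0 := by
      simpa using ((hasDerivAt_id (0 : ℝ)).smul_const v).const_add x
    have h3 := ((hf.comp_hasDerivAt_of_eq 0 h2 (by simp)).sub_const (f x)).add
      ((hasDerivAt_pow 2 (0 : ℝ)).const_mul (K / 2 * ‖v‖ ^ 2))
    exact h3.congr_deriv (by simp)
  have h2 : ∀ τ, 2 * φ (τ * 2⁻¹) ≤ φ τ := fun τ => by
    have h3 := h (x + (τ * 2⁻¹) • v) ((τ * 2⁻¹) • v)
    rw [add_neg_cancel_right, add_assoc, ← add_smul, show τ * 2⁻¹ + τ * 2⁻¹ = τ by ring, norm_smul,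
      mul_pow, Real.norm_eq_abs, sq_abs] at h3
    simp only [hφ]
    linarith
  have h3 : ∀ n : ℕ, ((2⁻¹ : ℝ) ^ n)⁻¹ * φ (2⁻¹ ^ n) ≤ φ 1 := fun n => by
    induction n with
    | zero => simp
    | succ n ih =>
      refine le_trans ?_ ih
      rw [pow_succ, mul_inv, inv_inv, mul_assoc]
      exact mul_le_mul_of_nonneg_left (h2 _) (by positivity)
  have h4 : Tendsto (fun n : ℕ => (2⁻¹ : ℝ) ^ n) atTop (𝓝[≠] 0) :=
    tendsto_nhdsWithin_iff.2 ⟨tendsto_pow_atTop_nhds_zero_of_lt_one (by norm_num) (by norm_num),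
      Eventually.of_forall fun n => by simp⟩
  have h5 : f' v ≤ φ 1 := le_of_tendsto' ((hasDerivAt_iff_tendsto_slope_zero.1 h1).comp h4)
    fun n => by simpa [hφ] using h3 n
  simp only [hφ, one_smul, one_pow] at h5
  linarith

lemma mm_lip (hw : IsW0 w I Z A) {s : ℝ} (hs : s ∈ I) {x x' : E3} {y : ℝ}
    (h : ‖x' - x‖ ≤ Real.exp y) :
    |mm w ((s, x'), y) - mm w ((s, x), y)| ≤ 32 * A / Real.exp y * ‖x' - x‖ :=
  (abs_mk_sub_le (hw.ratio s hs) (by linarith [hw.one_le]) (Real.exp_pos y) h).trans_eq (by ring)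

/-- the averaged mass ratio is semiconvex in space -/
lemma tb_space (hC : Calc) (hw : IsW0 w I Z A) (hσ : 0 < σ) {t y : ℝ}
    (ha : Icc (t - σ * Real.exp (2 * y)) t ⊆ I) (x : E3) :
    ∃ L : E3 →L[ℝ] ℝ, ‖L‖ ≤ 32 * A / Real.exp y ∧ ∀ v, tb w σ ((t, x), y) + L v
      - 4 * A / Real.exp y ^ 2 * ‖v‖ ^ 2 ≤ tb w σ ((t, x + v), y) := by
  have hA : 0 ≤ A := by linarith [hw.one_le]
  set c := σ * Real.exp (2 * y) with hc
  have hc0 : 0 < c := by positivity
  set D : ℝ → E3 →L[ℝ] ℝ := fun s => (fderiv ℝ (mm w) ((s, x), y)).comp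
    ((ContinuousLinearMap.inl ℝ ST ℝ).comp (ContinuousLinearMap.inr ℝ ℝ E3)) with hD
  have h1 : ∀ s ∈ I \ Z, HasFDerivAt (fun x' => mm w ((s, x'), y)) (D s) x := fun s hs =>
    HasFDerivAt.comp x (g := mm w) (diff1 (cd_mm' hC hw (a := ((s, x), y)) hs)).hasFDerivAt
      (HasFDerivAt.comp x (g := fun q : ST => (q, y)) (hasFDerivAt_prodMk_left (s, x) y)
        (hasFDerivAt_prodMk_right s x))
  have h2 : ∀ s ∈ I \ Z, ‖D s‖ ≤ 32 * A / Real.exp y := fun s hs => by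
    refine (h1 s hs).le_of_lip' (by positivity) ?_
    filter_upwards [closedBall_mem_nhds x (Real.exp_pos y)] with x' hx'
    exact mm_lip hw hs.1 (mem_closedBall_iff_norm.1 hx')
  have h3 : IntervalIntegrable D volume (t - c) t := ii_of hw (fun s hs =>
    (ContinuousAt.comp (g := fderiv ℝ (mm w)) (f := fun s : ℝ => (((s, x), y) : ST × ℝ))
      (diff2 (cd_mm' hC hw hs)).continuousAt (by fun_prop)).clm_comp continuousAt_const) h2
    (win_l hσ ha) (win_r hσ ha)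
  have h4 : ∀ᵐ s ∂volume, s ∈ Icc (t - c) t → s ∈ I \ Z :=
    (ae_notMem hw.null).mono fun s hs h => ⟨ha h, hs⟩
  refine ⟨c⁻¹ • ∫ s in (t - c)..t, D s, ?_, fun v => ?_⟩
  · have h5 := intervalIntegral.norm_integral_le_of_norm_le_const_ae (a := t - c) (b := t) (f := D)
      (C := 32 * A / Real.exp y) (h4.mono fun s hs h => h2 s (hs (Ioc_subset_Icc_self
        (uIoc_of_le (by linarith : t - c ≤ t) ▸ h))))
    rw [sub_sub_cancel, abs_of_pos hc0] at h5
    rw [norm_smul, norm_inv, Real.norm_eq_abs, abs_of_pos hc0, inv_mul_le_iff₀ hc0, mul_comm]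
    exact h5
  · have i := fun x => ii_m hC hw x y (win_l hσ ha) (win_r hσ ha)
    have i2 : IntervalIntegrable (fun s => D s v) volume (t - c) t :=
      ⟨(ContinuousLinearMap.apply ℝ ℝ v).integrable_comp h3.1,
        (ContinuousLinearMap.apply ℝ ℝ v).integrable_comp h3.2⟩
    have h5 := intervalIntegral.integral_mono_ae_restrict (by linarith : t - c ≤ t)
      (((i x).add i2).sub (intervalIntegrable_const (c := 8 * A / Real.exp y ^ 2 / 2 * ‖v‖ ^ 2)))
      (i (x + v)) ((ae_restrict_iff' measurableSet_Icc).2 (h4.mono fun s hs h =>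
        semi (h1 s (hs h)) (fun z u => mk_second (hw.ratio s (ha h)) hA z u (Real.exp_pos y)) v))
    rw [intervalIntegral.integral_sub ((i x).add i2) intervalIntegrable_const,
      intervalIntegral.integral_add (i x) i2, intervalIntegral.integral_const, sub_sub_cancel,
      smul_eq_mul, ← ContinuousLinearMap.intervalIntegral_apply h3] at h5
    simp only [tb_def, ← hc, smul_apply, smul_eq_mul]
    rw [le_div_iff₀ hc0]
    refine le_trans (le_of_eq ?_) h5
    field_simp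
    ring

lemma tb_diff (hC : Calc) (hw : IsW0 w I Z A) (hσ : 0 < σ) {t t' y : ℝ}
    (ha : Icc (t - σ * Real.exp (2 * y)) t ⊆ I) (ha' : Icc (t' - σ * Real.exp (2 * y)) t' ⊆ I)
    (x : E3) : tb w σ ((t', x), y) = tb w σ ((t, x), y) + ((∫ s in t..t', mm w ((s, x), y))
      - ∫ s in (t - σ * Real.exp (2 * y))..(t' - σ * Real.exp (2 * y)), mm w ((s, x), y))
        / (σ * Real.exp (2 * y)) := by
  simp only [tb_def]
  rw [← add_div, ← add_sub_assoc, intervalIntegral.integral_add_adjacent_intervals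
    (ii_m hC hw x y (win_l hσ ha) (win_r hσ ha)) (ii_m hC hw x y (win_r hσ ha) (win_r hσ ha')),
    intervalIntegral.integral_interval_sub_left (ii_m hC hw x y (win_l hσ ha) (win_r hσ ha'))
      (ii_m hC hw x y (win_l hσ ha) (win_l hσ ha'))]

/-- the averaged mass ratio is Lipschitz in time -/
lemma tb_time' (hC : Calc) (hw : IsW0 w I Z A) (hσ : 0 < σ) {t t' y : ℝ}
    (ha : Icc (t - σ * Real.exp (2 * y)) t ⊆ I) (ha' : Icc (t' - σ * Real.exp (2 * y)) t' ⊆ I)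
    (x : E3) : tb w σ ((t, x), y) - 3 * A / (σ * Real.exp (2 * y)) * |t' - t|
      ≤ tb w σ ((t', x), y) := by
  have h1 : ∀ a ∈ I, ∀ b ∈ I, |∫ s in a..b, mm w ((s, x), y)| ≤ 4 / 3 * A * |b - a| :=
    fun a h1 b h2 => intervalIntegral.norm_integral_le_of_norm_le_const fun s hs =>
      mm_abs hw (hw.conn.uIcc_subset h1 h2 (uIoc_subset_uIcc hs))
  have h2 := abs_le.1 (h1 _ (win_r hσ ha) _ (win_r hσ ha'))
  have h3 := abs_le.1 (h1 _ (win_l hσ ha) _ (win_l hσ ha'))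
  rw [sub_sub_sub_cancel_right] at h3
  rw [tb_diff hC hw hσ ha ha', sub_eq_add_neg, div_mul_eq_mul_div, ← neg_div]
  have := hw.one_le
  have := abs_nonneg (t' - t)
  exact add_le_add_right (div_le_div_of_nonneg_right (by nlinarith [h2.1, h3.2]) (by positivity)) _

/-- the one-sided limit of the mass ratio at the left end of the window -/
lemma exists_lam (hC : Calc) (hM : MonoW) (hw : IsW0 w I Z A) (hσ : 0 < σ) {t y : ℝ}
    (ha : Icc (t - σ * Real.exp (2 * y)) t ⊆ I) (x : E3) :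
    ∃ lam : ℝ, tb w σ ((t, x), y) ≤ lam + 3 * (σ * A) ∧
      ∀ d, t - σ * Real.exp (2 * y) + d ∈ I → d ≤ σ * Real.exp (2 * y) → ∀ x', ‖x' - x‖ ≤ Real.exp y →
        ∫ s in (t - σ * Real.exp (2 * y))..(t - σ * Real.exp (2 * y) + d), mm w ((s, x'), y)
          ≤ lam * d + (3 * A / Real.exp y ^ 2 * |d| + 32 * A / Real.exp y * ‖x' - x‖) * |d| := by
  have hA : 0 ≤ A := by linarith [hw.one_le]
  have hl := win_l hσ ha
  have hr := win_r hσ ha
  have e : Real.exp (2 * y) = Real.exp y ^ 2 := by rw [← Real.exp_nat_mul]; norm_num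
  set c := σ * Real.exp (2 * y) with hc
  have hc0 : 0 < c := by positivity
  set τ := t - c with hτ
  set C := 3 * A / Real.exp y ^ 2 with hCd
  have hC0 : 0 ≤ C := by positivity
  set S := (fun s => mm w ((s, x), y) - C * (s - τ)) '' Ioc τ t with hS
  have hb : BddAbove S := ⟨4 / 3 * A, by
    rintro _ ⟨s, hs, rfl⟩
    have := (le_abs_self _).trans (mm_abs hw (a := ((s, x), y)) (ha (Ioc_subset_Icc_self hs)))
    have := mul_nonneg hC0 (sub_nonneg.2 hs.1.le)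
    simp only
    linarith⟩
  have h1 : ∀ s ∈ Ioc τ t, mm w ((s, x), y) ≤ sSup S + C * (s - τ) := fun s hs =>
    sub_le_iff_le_add.1 (le_csSup hb ⟨s, hs, rfl⟩)
  have h2 : ∀ s ∈ I \ Z, s ≤ τ → sSup S - C * (τ - s) ≤ mm w ((s, x), y) := fun s hs h => by
    refine sub_le_iff_le_add.2 (csSup_le ((nonempty_Ioc.2 (by linarith)).image _) ?_)
    rintro _ ⟨s', hs', rfl⟩
    have := hM.mk_anti w I Z A hw x _ (Real.exp_pos y) s hs s' (ha (Ioc_subset_Icc_self hs'))
      (h.trans hs'.1.le)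
    simp only [mm]
    linarith
  have key : ∀ d, τ + d ∈ I → d ≤ c → ∀ x', ‖x' - x‖ ≤ Real.exp y →
      ∫ s in τ..(τ + d), mm w ((s, x'), y)
        ≤ sSup S * d + (C * |d| + 32 * A / Real.exp y * ‖x' - x‖) * |d| := fun d h3 h4 x' h5 => by
    rcases le_total 0 d with hd | hd
    · rw [abs_of_nonneg hd]
      refine (intervalIntegral.integral_mono_on_of_le_Ioo (by linarith) (ii_m hC hw x' y hl h3)
        (intervalIntegrable_const (c := sSup S + (C * d + 32 * A / Real.exp y * ‖x' - x‖)))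
        fun s hs => ?_).trans_eq (by simp; ring)
      have h6 : s ∈ Ioc τ t := ⟨hs.1, by linarith [hs.2]⟩
      linarith [h1 s h6, (abs_le.1 (mm_lip hw (ha (Ioc_subset_Icc_self h6)) h5)).2,
        mul_le_mul_of_nonneg_left (show s - τ ≤ d by linarith [hs.2]) hC0]
    · rw [abs_of_nonpos hd, intervalIntegral.integral_symm, neg_le]
      refine le_trans (le_of_eq (by simp; ring)) (intervalIntegral.integral_mono_ae_restrict
        (by linarith) (intervalIntegrable_const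
          (c := sSup S - (C * -d + 32 * A / Real.exp y * ‖x' - x‖))) (ii_m hC hw x' y h3 hl) ?_)
      filter_upwards [ae_restrict_mem measurableSet_Icc, ae_restrict_of_ae (ae_notMem hw.null)]
        with s hs h6
      have h7 : s ∈ I := hw.conn.out h3 hl hs
      linarith [h2 s ⟨h7, h6⟩ hs.2, (abs_le.1 (mm_lip hw h7 h5)).1,
        mul_le_mul_of_nonneg_left (show τ - s ≤ -d by linarith [hs.1]) hC0]
  refine ⟨sSup S, ?_, key⟩
  have h3 := key c (by rwa [hτ, sub_add_cancel]) le_rfl x (by simp [Real.exp_nonneg])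
  rw [hτ, sub_add_cancel, abs_of_pos hc0, sub_self, norm_zero, mul_zero, add_zero] at h3
  rw [tb_def, div_le_iff₀ hc0]
  refine h3.trans_eq ?_
  rw [hCd, hc, e]
  field_simp

/-- a quadratic polynomial which touches the averaged mass ratio from below -/
lemma tb_bar (hC : Calc) (hM : MonoW) (hw : IsW0 w I Z A) (hσ : 0 < σ) {p : ST} {y : ℝ}
    (hp : p.1 ∉ Z) (ha : Icc (p.1 - σ * Real.exp (2 * y)) p.1 ⊆ I) :
    ∃ (L : E3 →L[ℝ] ℝ) (a K : ℝ), ‖L‖ ≤ 32 * A / Real.exp y ∧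
      (tb w σ (p, y) - 3 * (σ * A) - mm w (p, y)) / (σ * Real.exp (2 * y)) ≤ a ∧
      ∀ᶠ q : ST in 𝓝 p, tb w σ (p, y) + L (q.2 - p.2) - 5 * A / Real.exp y ^ 2 * ‖q.2 - p.2‖ ^ 2
        - a * (q.1 - p.1) - K * (q.1 - p.1) ^ 2 ≤ tb w σ (q, y) := by
  have hA := hw.one_le
  obtain ⟨L, hL, h1⟩ := tb_space hC hw hσ ha p.2
  obtain ⟨lam, h2, h3⟩ := exists_lam hC hM hw hσ ha p.2
  have hl := win_l hσ ha
  have hr := win_r hσ ha
  have h4 : DifferentiableAt ℝ (fun s : ℝ => mm w ((s, p.2), y)) p.1 :=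
    DifferentiableAt.comp p.1 (g := mm w) (f := fun s : ℝ => (((s, p.2), y) : ST × ℝ))
      (diff1 (cd_mm' hC hw (a := (p, y)) ⟨hr, hp⟩)) (by fun_prop)
  obtain ⟨K₁, hK, h5⟩ := h4.isBigO_sub.exists_pos
  obtain ⟨ε, hε, h6⟩ := Metric.eventually_nhds_iff_ball.1 h5.bound
  have hr0 := Real.exp_pos y
  set c := σ * Real.exp (2 * y) with hc
  have hc0 : 0 < c := by positivity
  set Λ := 32 * A / Real.exp y with hΛ
  set C := 3 * A / Real.exp y ^ 2 with hCd
  refine ⟨L, (lam - mm w (p, y)) / c, (K₁ + C) / c + (Λ / c) ^ 2 * Real.exp y ^ 2 / A, hL,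
    div_le_div_of_nonneg_right (by linarith) hc0.le, ?_⟩
  filter_upwards [ev_win' hw (f := fun q : ST => q.1 - c) (g := fun q => q.1) (by fun_prop)
    (by fun_prop) hl hr, continuousAt_fst.eventually (ball_mem_nhds p.1 (lt_min hε hc0)),
    continuousAt_snd.eventually (closedBall_mem_nhds p.2 hr0)] with q e1 e2 e3
  rw [dist_eq_norm] at e3
  rw [Real.dist_eq, lt_min_iff] at e2
  have e4 := h1 (q.2 - p.2)
  have e5 := h3 (q.1 - p.1) (by rw [sub_add_sub_cancel']; exact win_l hσ e1)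
    ((le_abs_self _).trans e2.2.le) q.2 e3
  rw [add_sub_cancel] at e4
  rw [sub_add_sub_cancel'] at e5
  have i := ii_m hC hw q.2 y hr (win_r hσ e1)
  have e6 := intervalIntegral.norm_integral_le_of_norm_le_const (a := p.1) (b := q.1)
    (f := fun s => mm w ((s, q.2), y) - mm w (p, y)) (C := K₁ * |q.1 - p.1| + Λ * ‖q.2 - p.2‖)
    fun s hs => by
      have a1 := abs_sub_left_of_mem_uIcc (uIoc_subset_uIcc hs)
      have a2 : |mm w ((s, p.2), y) - mm w (p, y)| ≤ K₁ * |s - p.1| :=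
        h6 s (mem_ball_iff_norm.2 (a1.trans_lt e2.1))
      have a3 := mm_lip hw (hw.conn.uIcc_subset hr (win_r hσ e1) (uIoc_subset_uIcc hs)) e3
      exact (abs_sub_le _ (mm w ((s, p.2), y)) _).trans
        (by linarith [mul_le_mul_of_nonneg_left a1 hK.le])
  rw [intervalIntegral.integral_sub i intervalIntegrable_const, intervalIntegral.integral_const,
    smul_eq_mul] at e6
  have e7 := tb_diff hC hw hσ ha e1 q.2
  change tb w σ (q, y) = _ at e7
  rw [e7, ← sq_abs (q.1 - p.1)]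
  have e8 := (abs_le.1 e6).1
  generalize (∫ s in p.1..q.1, mm w ((s, q.2), y)) = J₁ at *
  generalize (∫ s in (p.1 - c)..(q.1 - c), mm w ((s, q.2), y)) = J₂ at *
  generalize |q.1 - p.1| = d at *
  generalize ‖q.2 - p.2‖ = n at *
  have e9 : (-((lam - mm w (p, y)) * (q.1 - p.1)) - (K₁ + C) * d ^ 2 - 2 * Λ * n * d) / c
      ≤ (J₁ - J₂) / c := div_le_div_of_nonneg_right (by linarith) hc0.le
  have e10 : 2 * Λ * n * d / c ≤ A / Real.exp y ^ 2 * n ^ 2
      + (Λ / c) ^ 2 * Real.exp y ^ 2 / A * d ^ 2 := by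
    have : A / Real.exp y ^ 2 * n ^ 2 + (Λ / c) ^ 2 * Real.exp y ^ 2 / A * d ^ 2 - 2 * Λ * n * d / c
        = A / Real.exp y ^ 2 * (n - Λ / c * Real.exp y ^ 2 / A * d) ^ 2 := by
      field_simp
      ring
    have : 0 ≤ A / Real.exp y ^ 2 * (n - Λ / c * Real.exp y ^ 2 / A * d) ^ 2 := by positivity
    linarith
  have e11 : (-((lam - mm w (p, y)) * (q.1 - p.1)) - (K₁ + C) * d ^ 2 - 2 * Λ * n * d) / c
      = -((lam - mm w (p, y)) / c * (q.1 - p.1)) - (K₁ + C) / c * d ^ 2 - 2 * Λ * n * d / c := by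
    ring
  have e12 : 5 * A / Real.exp y ^ 2 * n ^ 2
      = 4 * A / Real.exp y ^ 2 * n ^ 2 + A / Real.exp y ^ 2 * n ^ 2 := by ring
  change tb w σ (p, y) + _ - _ ≤ _ at e4
  linarith

end Vale.Agent.P218WO
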